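import Vale.Agent.P370Z.GRID.Emb

/-!
# P370, block GRID: size of the on-site energies, number of crossings, position of the orbitals
-/

namespace Vale.Agent.P370Z

open Finset

theorem card_core (nE nD : ℕ) : Fintype.card (Core nE nD) = nC nE nD := by
  unfold nC
  rw [Fintype.card_subtype, card_filter, Fintype.sum_prod_type,
    ← Fin.sum_univ_eq_sum_range (fun i => ∑ j ∈ range (2 * nI nE nD),
      if hAct nE nD i j ∧ hAct nE nD j i then 1 else 0)]
  exact sum_congr rfl fun i _ => Fin.sum_univ_eq_sum_range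
    (fun j => if hAct nE nD i j ∧ hAct nE nD j i then 1 else 0) _

namespace GRID.GeoOK

variable {nE nD : ℕ}

lemma lap_diag (K k : ℕ) {T t : ℝ} (ht : 0 ≤ t) (htT : t ≤ T) :
    0 ≤ lapM K (hopG T t) k k ∧ lapM K (hopG T t) k k ≤ 2 * T := by
  have h : ∀ j, 0 ≤ hopG T t j ∧ hopG T t j ≤ T := by
    intro j
    unfold hopG
    split_ifs
    · exact ⟨ht.trans htT, le_rfl⟩
    · exact ⟨ht, htT⟩
  have h1 := h k
  have h2 := h (k + 1)
  unfold lapM
  rw [if_pos rfl]
  split_ifs <;> constructor <;> linarith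

lemma cross_lines {i j : ℕ} (h : hAct nE nD i j) (h' : hAct nE nD j i) :
    j / 2 ∈ lines nE nD ∧ i / 2 ∈ lines nE nD ∧ (isMain nE nD (j / 2) ∨ isMain nE nD (i / 2)) := by
  refine cross_iff.1 ?_
  rw [show 2 * (i / 2) + 1 = i by have := h'.1; omega,
    show 2 * (j / 2) + 1 = j by have := h.1; omega]
  exact ⟨h, h'⟩

theorem wGrid_bd {U W : ℕ → ℕ → ℝ} {T t β : ℝ}
    (hU : Tight fun (e : Fin nE) (d : Fin nD) => U e d)
    (hW : Tight fun (e : Fin nE) (d : Fin nD) => W e d) (hβ : 0 < β)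
    (h1 : (nW nE nD : ℝ) * β ≤ t) (h2 : 4 * t ≤ T) (k l : ℕ) :
    |wGrid nE nD U W T t β k l| ≤ 8 * T := by
  have hn : (1 : ℝ) ≤ nW nE nD := by
    have : 1 ≤ nW nE nD := by unfold nW; omega
    exact_mod_cast this
  have hβt : β ≤ t := by nlinarith
  have ht : 0 < t := by linarith
  have a1 := lap_diag (nK nE nD) k ht.le (show t ≤ T by linarith)
  have a2 := lap_diag (nK nE nD) l ht.le (show t ≤ T by linarith)
  have hdeg : ∀ J i, 0 ≤ t / 2 * (wdeg nE nD J i : ℝ) ∧ t / 2 * (wdeg nE nD J i : ℝ) ≤ t := by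
    intro J i
    have h3 : wdeg nE nD J i ≤ 2 := by unfold wdeg; split_ifs <;> omega
    have h4 : (wdeg nE nD J i : ℝ) ≤ 2 := by exact_mod_cast h3
    exact ⟨by positivity, by nlinarith⟩
  have h3 : |wPre nE nD U W T t β k l| ≤ 4 * T := by
    unfold wPre
    split_ifs with c1 c2 c3
    · obtain ⟨b1, b2, b3⟩ := cross_lines c1.1 c1.2
      rw [Nat.div_div_eq_div_mul, Nat.div_div_eq_div_mul] at b3
      rw [Nat.div_div_eq_div_mul] at b1 b2
      have b4 := abs_cpl_le_one hU hW b1 b2 b3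
      have b5 : |β * nW nE nD * cpl nE nD U W (l / 4) (k / 4) * (-1) ^ (k / 4 + l / 4 + k + l)| ≤
          t := by
        rw [abs_mul, abs_mul, abs_pow, abs_neg, abs_one, one_pow, mul_one,
          abs_of_pos (by positivity : 0 < β * nW nE nD)]
        exact (mul_le_of_le_one_right (by positivity) b4).trans (by linarith)
      rw [abs_le] at b5 ⊢
      constructor <;> linarith
    · have := hdeg (l / 4) (k / 2)
      rw [abs_le]
      constructor <;> linarith
    · have := hdeg (k / 4) (l / 2)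
      rw [abs_le]
      constructor <;> linarith
    · rw [abs_le]
      constructor <;> linarith
  unfold wGrid
  rw [abs_le] at h3 ⊢
  constructor <;> linarith

lemma vam_lead (U : ℕ → ℕ → ℝ) (d e i : ℕ) :
    vam nE nD U d (nE + nD + e) i = 3 / √(68 * nW nE nD) * U e d := by
  unfold vam coef
  rw [if_neg (not_isMain_lead e), show nE + nD + e - nE - nD = e by omega,
    Real.sqrt_mul (by norm_num)]
  ring

lemma rm_link {k l : ℕ} (h : hAct nE nD (k / 2) (l / 2)) (h' : ¬ hAct nE nD (l / 2) (k / 2)) :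
    rm nE nD k l = (-1) ^ ex nE nD (k / 2) (l / 2) / 2 := by
  unfold rm
  rw [if_pos h, if_neg h', add_zero]

lemma rm_off {k l : ℕ} (h : ¬ hAct nE nD (k / 2) (l / 2)) : rm nE nD k l = 0 := if_neg h

lemma emb_end (u v : ℕ → ℕ → ℝ) {e k l : ℕ} (he : e < nE) (hk : k / 2 = 2 * (nE + nD + e))
    (hl : l / 2 = 2 * (nE + nD + e) + 1) : emb nE nD u v k l =
      (-1) ^ ex nE nD (2 * (nE + nD + e)) (2 * (nE + nD + e) + 1) / 2 *
        u (nE + nD + e) (2 * (nE + nD + e)) := by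
  have h1 : hAct nE nD (k / 2) (l / 2) := by rw [hAct_iff]; omega
  have h2 : ¬ hAct nE nD (l / 2) (k / 2) := by rw [hk]; exact not_hAct_even
  unfold emb
  rw [rm_link h1 h2, rm_off h2, zero_mul, add_zero, hk, hl,
    show l / 4 = nE + nD + e by omega]

lemma oc_ne {i j k l : ℕ} (h : oc i j k l ≠ 0) : k / 2 = i ∧ l / 2 = j := by
  by_contra h'
  exact h (if_neg h')

/-- outside of the main lines a valence orbital lives on the leads -/
lemma emb_ne {U W : ℕ → ℕ → ℝ} {d k l : ℕ}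
    (h : emb nE nD (vam nE nD U d) (vam nE nD W d) k l ≠ 0) (hk : ¬ isMain nE nD (k / 4))
    (hl : ¬ isMain nE nD (l / 4)) :
    (hAct nE nD (k / 2) (l / 2) ∧ U (l / 4 - nE - nD) d ≠ 0) ∨
    (hAct nE nD (l / 2) (k / 2) ∧ W (k / 4 - nE - nD) d ≠ 0) := by
  have key : ∀ (V : ℕ → ℕ → ℝ) (k l : ℕ), ¬ isMain nE nD (l / 4) →
      rm nE nD k l * vam nE nD V d (l / 4) (k / 2) ≠ 0 →
      hAct nE nD (k / 2) (l / 2) ∧ V (l / 4 - nE - nD) d ≠ 0 := by
    intro V k l hl h
    constructor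
    · by_contra h'
      exact h (by rw [rm_off h', zero_mul])
    · intro h'
      apply h
      unfold vam coef
      rw [if_neg hl, h']
      simp
  by_contra h'
  apply h
  unfold emb
  have a1 : rm nE nD k l * vam nE nD U d (l / 4) (k / 2) = 0 := by
    by_contra h1
    exact h' (Or.inl (key U k l hl h1))
  have a2 : rm nE nD l k * vam nE nD W d (k / 4) (l / 2) = 0 := by
    by_contra h1
    exact h' (Or.inr (key W l k hk h1))
  rw [a1, a2, add_zero]

theorem gridGeo {B : Type} {U W : ℕ → ℕ → ℝ} {blk : Fin nD → B}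
    (hu : ∀ μ, ∑ κ, OO nE nD U W μ κ ^ 2 = 1)
    (hb : BlkOK blk (fun (e : Fin nE) (d : Fin nD) => U e d)
      (fun (e : Fin nE) (d : Fin nD) => W e d)) :
    GridGeo (OO nE nD U W) blk (fun (e : Fin nE) (d : Fin nD) => 3 / √(68 * nW nE nD) * U e d)
      (fun (e : Fin nE) (d : Fin nD) => 3 / √(68 * nW nE nD) * W e d)
      (fun e => nE + nD + e) (isMain nE nD) where
  unit := hu
  pos_lt e := by have := e.2; unfold nK nI; omega
  pos_inj e e' h := Fin.ext (by simpa using h)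
  ampA e := by
    refine ⟨(-1) ^ ex nE nD (2 * (nE + nD + e)) (2 * (nE + nD + e) + 1),
      by rw [← pow_mul, mul_comm, pow_mul]; norm_num, ?_⟩
    rintro (c | d) κ hk hl
    · have := c.2.2.1
      show oc _ _ _ _ = _ * 0 / 2
      rw [oc, if_neg (by omega)]
      simp
    · show emb _ _ _ _ _ _ = _ * (3 / √(68 * nW nE nD) * U e d) / 2
      rw [emb_end _ _ e.2 hk hl, vam_lead]
      ring
  ampB e := by
    refine ⟨(-1) ^ ex nE nD (2 * (nE + nD + e)) (2 * (nE + nD + e) + 1),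
      by rw [← pow_mul, mul_comm, pow_mul]; norm_num, ?_⟩
    rintro (c | d) κ hk hl
    · have := c.2.1.1
      show oc _ _ _ _ = _ * 0 / 2
      rw [oc, if_neg (by omega)]
      simp
    · have h1 := congrFun (congrFun (tr_emb (nE := nE) (nD := nD) (vam nE nD W d) (vam nE nD U d))
        κ.1) κ.2
      show emb _ _ _ _ _ _ = _ * (3 / √(68 * nW nE nD) * W e d) / 2
      rw [← h1, tr, emb_end _ _ e.2 hl hk, vam_lead]
      ring
  sep μ ν κ κ' h h' hs := by
    by_cases w1 : isMain nE nD (κ.1 / 4)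
    · exact Or.inl w1
    by_cases w2 : isMain nE nD (κ.2 / 4)
    · exact Or.inr (Or.inl w2)
    by_cases w3 : isMain nE nD (κ'.1 / 4)
    · exact Or.inr (Or.inr (Or.inl w3))
    by_cases w4 : isMain nE nD (κ'.2 / 4)
    · exact Or.inr (Or.inr (Or.inr (Or.inl w4)))
    refine Or.inr (Or.inr (Or.inr (Or.inr ?_)))
    by_cases e1 : (κ.1 : ℕ) / 4 = κ'.1 / 4
    swap
    · exact Or.inl e1
    by_cases e2 : (κ.2 : ℕ) / 4 = κ'.2 / 4
    swap
    · exact Or.inr (Or.inl e2)
    refine Or.inr (Or.inr ?_)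
    have nocore : ∀ (c : Core nE nD) (k l : ℕ), oc c.1.1 c.1.2 k l ≠ 0 →
        ¬ isMain nE nD (k / 4) → ¬ isMain nE nD (l / 4) → False := by
      intro c k l h0 hk hl
      obtain ⟨b1, b2⟩ := oc_ne h0
      have b3 := (cross_lines c.2.1 c.2.2).2.2
      rw [← b1, ← b2, Nat.div_div_eq_div_mul, Nat.div_div_eq_div_mul] at b3
      exact b3.elim hl hk
    rcases μ with c | d
    · exact (nocore c _ _ h w1 w2).elim
    rcases ν with c | d'
    · exact (nocore c _ _ h' w3 w4).elim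
    unfold isMain at w1 w2 w3 w4
    rcases emb_ne h w1 w2 with ⟨a1, a2⟩ | ⟨a1, a2⟩ <;>
      rcases emb_ne h' w3 w4 with ⟨b1, b2⟩ | ⟨b1, b2⟩ <;> rw [hAct_iff] at a1 b1
    · rw [← e2] at b2
      exact (hs (hb.blkU ⟨κ.2 / 4 - nE - nD, by omega⟩ d d' a2 b2)).elim
    · exact ⟨⟨κ.2 / 4 - nE - nD, by omega⟩, Or.inl (by simp only; omega)⟩
    · exact ⟨⟨κ.2 / 4 - nE - nD, by omega⟩, Or.inr (by simp only; omega)⟩
    · rw [← e1] at b2
      exact (hs (hb.blkW ⟨κ.1 / 4 - nE - nD, by omega⟩ d d' a2 b2)).elim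

end GRID.GeoOK

end Vale.Agent.P370Z
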