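import Vale.Agent.P370Z.GRID.Geo

/-!
# P370, block GRID: the low energy vectors
-/

namespace Vale.Agent.P370Z.GRID

open Finset

variable {nE nD : ℕ}

/-- the amplitude of the row mode in the lower left room of the cluster -/
noncomputable def rho (nE nD i j : ℕ) : ℝ :=
  if hAct nE nD i j then (-1) ^ ex nE nD i j / 2 else 0

/-- the relative sign of the row mode in the right rooms of the cluster -/
noncomputable def tau (nE nD i j : ℕ) : ℝ := if hAct nE nD j i then -1 else 1

theorem rm00 (i j : ℕ) : rm nE nD (2 * i) (2 * j) = rho nE nD i j := by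
  unfold rm rho
  rw [show 2 * i / 2 = i by omega, show 2 * j / 2 = j by omega]
  split_ifs <;> simp [pow_add, pow_mul]

theorem rm01 (i j : ℕ) : rm nE nD (2 * i) (2 * j + 1) = rho nE nD i j := by
  unfold rm rho
  rw [show 2 * i / 2 = i by omega, show (2 * j + 1) / 2 = j by omega]
  split_ifs <;> simp [pow_add, pow_mul]

theorem rm10 (i j : ℕ) : rm nE nD (2 * i + 1) (2 * j) = tau nE nD i j * rho nE nD i j := by
  unfold rm rho tau
  rw [show (2 * i + 1) / 2 = i by omega, show 2 * j / 2 = j by omega]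
  split_ifs <;> simp [pow_add, pow_mul, neg_div]

theorem rm11 (i j : ℕ) : rm nE nD (2 * i + 1) (2 * j + 1) = tau nE nD i j * rho nE nD i j := by
  unfold rm rho tau
  rw [show (2 * i + 1) / 2 = i by omega, show (2 * j + 1) / 2 = j by omega]
  split_ifs <;> simp [pow_add, pow_mul, neg_div]

theorem rho_zero {i j : ℕ} (h : ¬ hAct nE nD i j) : rho nE nD i j = 0 := if_neg h

theorem rho_sq {i j : ℕ} (h : hAct nE nD i j) : rho nE nD i j * rho nE nD i j = 1 / 4 := by
  unfold rho
  rw [if_pos h, div_mul_div_comm, ← pow_add, ← two_mul, pow_mul]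
  norm_num

theorem tau_neg {i j : ℕ} (h : hAct nE nD j i) : tau nE nD i j = -1 := if_pos h

theorem tau_one {i j : ℕ} (h : ¬ hAct nE nD j i) : tau nE nD i j = 1 := if_neg h

theorem rho_succ {i j : ℕ} (h : hAct nE nD i j) (h' : hAct nE nD (i + 1) j) :
    tau nE nD i j * rho nE nD i j * rho nE nD (i + 1) j = 1 / 4 := by
  have e : ex nE nD (i + 1) j = ex nE nD i j + if hAct nE nD j i then 1 else 0 := by
    unfold ex
    split_ifs with h1 h2 h2 <;> rw [hAct_iff] at h h' h2 <;> unfold isMain at h1 <;> omega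
  have := rho_sq h
  unfold rho tau at *
  rw [if_pos h] at *
  rw [if_pos h', e]
  split_ifs
  · rw [pow_succ]; linarith
  · rw [add_zero]; linarith

theorem rho_cross {i j : ℕ} (h : hAct nE nD i j) (h' : hAct nE nD j i) :
    rho nE nD i j * rho nE nD j i * (-1) ^ (i / 2 + j / 2) = 1 / 4 := by
  have e : ex nE nD i j + ex nE nD j i + (i / 2 + j / 2) = 2 * (i / 2 + j / 2 - nE) := by
    unfold ex
    rw [hAct_iff] at h h'
    split_ifs with h1 h2 h2 <;> unfold isMain at h1 h2 <;> omega
  unfold rho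
  rw [if_pos h, if_pos h', div_mul_div_comm, ← pow_add, div_mul_eq_mul_div, ← pow_add, e, pow_mul]
  norm_num

variable (u v : ℕ → ℕ → ℝ)

theorem tr_emb : tr (emb nE nD u v) = emb nE nD v u := by
  funext k l; simp only [tr, emb]; ring

theorem emb00 (i j : ℕ) : emb nE nD u v (2 * i) (2 * j) =
    rho nE nD i j * u (j / 2) i + rho nE nD j i * v (i / 2) j := by
  unfold emb
  rw [rm00, rm00, show 2 * i / 2 = i by omega, show 2 * j / 2 = j by omega,
    show 2 * i / 4 = i / 2 by omega, show 2 * j / 4 = j / 2 by omega]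

theorem emb10 (i j : ℕ) : emb nE nD u v (2 * i + 1) (2 * j) =
    tau nE nD i j * rho nE nD i j * u (j / 2) i + rho nE nD j i * v (i / 2) j := by
  unfold emb
  rw [rm10, rm01, show (2 * i + 1) / 2 = i by omega, show 2 * j / 2 = j by omega,
    show (2 * i + 1) / 4 = i / 2 by omega, show 2 * j / 4 = j / 2 by omega]

theorem emb01 (i j : ℕ) : emb nE nD u v (2 * i) (2 * j + 1) =
    rho nE nD i j * u (j / 2) i + tau nE nD j i * rho nE nD j i * v (i / 2) j := by
  unfold emb
  rw [rm10, rm01, show 2 * i / 2 = i by omega, show (2 * j + 1) / 2 = j by omega,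
    show 2 * i / 4 = i / 2 by omega, show (2 * j + 1) / 4 = j / 2 by omega]

theorem emb11 (i j : ℕ) : emb nE nD u v (2 * i + 1) (2 * j + 1) =
    tau nE nD i j * rho nE nD i j * u (j / 2) i + tau nE nD j i * rho nE nD j i * v (i / 2) j := by
  unfold emb
  rw [rm11, rm11, show (2 * i + 1) / 2 = i by omega, show (2 * j + 1) / 2 = j by omega,
    show (2 * i + 1) / 4 = i / 2 by omega, show (2 * j + 1) / 4 = j / 2 by omega]

theorem rm_zero {k l : ℕ} (h : nK nE nD ≤ k ∨ nK nE nD ≤ l) : rm nE nD k l = 0 :=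
  if_neg fun h' => by have := hAct_lt h'; rw [nK_eq] at h; omega

theorem emb_zero (k l : ℕ) (h : nK nE nD ≤ k ∨ nK nE nD ≤ l) : emb nE nD u v k l = 0 := by
  unfold emb; rw [rm_zero h, rm_zero h.symm]; ring

theorem cl_emb_cross {i j : ℕ} (h : hAct nE nD i j) (h' : hAct nE nD j i) :
    cl (emb nE nD u v) i j = 0 := by
  unfold cl
  rw [emb00, emb10, emb01, emb11, tau_neg h, tau_neg h']; ring

theorem amp_emb {J i : ℕ} (hJ : J ∈ lines nE nD) (hi : i ∈ wire nE nD J) :
    amp nE nD (emb nE nD u v) J i = u J i := by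
  have h := hAct_odd.2 ⟨hJ, hi⟩
  have h1 := rho_sq h
  simp only [amp, cl]
  rw [emb00, emb10, emb01, emb11, rm00, rm10, rm01, rm11, tau_neg h,
    show (2 * J + 1) / 2 = J by omega]
  by_cases h' : hAct nE nD (2 * J + 1) i
  · rw [tau_neg h']; linear_combination 4 * u J i * h1
  · rw [tau_one h', rho_zero h']; linear_combination 4 * u J i * h1

theorem If_row (f : ℕ → ℕ → ℝ) : If (2 * nI nE nD) (fun k l => rm nE nD k l * u (l / 4) (k / 2)) f =
    wip nE nD u (amp nE nD f) := by
  have h := sum_hAct (nE := nE) (nD := nD) fun i j =>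
    u (j / 2) i * cl (fun k l => rm nE nD k l * f k l) i j
  simp only [show ∀ J, (2 * J + 1) / 2 = J by omega] at h
  unfold wip amp If
  rw [← h]
  refine sum_congr rfl fun i _ => sum_congr rfl fun j _ => ?_
  simp only [cl, rm00, rm01, rm10, rm11, show (2 * i + 1) / 2 = i by omega,
    show 2 * i / 2 = i by omega, show (2 * j + 1) / 4 = j / 2 by omega,
    show 2 * j / 4 = j / 2 by omega]
  split_ifs with h1
  · ring
  · rw [rho_zero h1]; ring

theorem If_emb (f : ℕ → ℕ → ℝ) : If (2 * nI nE nD) (emb nE nD u v) f =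
    wip nE nD u (amp nE nD f) + wip nE nD v (amp nE nD (tr f)) := by
  rw [← If_row, ← If_row, ← If_tr _ (tr f)]
  exact If_add_left _ _ _

theorem wip_congr {u' u'' : ℕ → ℕ → ℝ}
    (h : ∀ J ∈ lines nE nD, ∀ i ∈ wire nE nD J, u' J i = u'' J i) :
    wip nE nD u u' = wip nE nD u u'' :=
  sum_congr rfl fun J hJ => sum_congr rfl fun i hi => by rw [h J hJ i hi]

theorem If_emb_emb (u' v' : ℕ → ℕ → ℝ) : If (2 * nI nE nD) (emb nE nD u v) (emb nE nD u' v') =
    wip nE nD u u' + wip nE nD v v' := by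
  rw [If_emb, tr_emb, wip_congr u fun J hJ i hi => amp_emb u' v' hJ hi,
    wip_congr v fun J hJ i hi => amp_emb v' u' hJ hi]

variable (U W : ℕ → ℕ → ℝ) (T t β : ℝ)

theorem wPre_cl (i j p q : ℕ) (hp : p < 2) (hq : q < 2) :
    wPre nE nD U W T t β (2 * i + p) (2 * j + q) =
      if hAct nE nD i j ∧ hAct nE nD j i then
        t + β - β * nW nE nD * cpl nE nD U W (j / 2) (i / 2) * (-1) ^ (i / 2 + j / 2) * (-1) ^ (p + q)
      else if hAct nE nD i j then 2 * T + t / 2 * wdeg nE nD (j / 2) i + β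
      else if hAct nE nD j i then 2 * T + t / 2 * wdeg nE nD (i / 2) j + β
      else 4 * T := by
  unfold wPre
  rw [show (2 * i + p) / 2 = i by omega, show (2 * j + q) / 2 = j by omega,
    show (2 * i + p) / 4 = i / 2 by omega, show (2 * j + q) / 4 = j / 2 by omega,
    show i / 2 + j / 2 + (2 * i + p) + (2 * j + q) = (i / 2 + j / 2) + (p + q) + 2 * (i + j) by ring,
    pow_add, pow_mul, pow_add]
  simp [mul_assoc]

theorem wdeg_cross {i j : ℕ} (h' : hAct nE nD j i) :
    wdeg nE nD (j / 2) i = 2 := by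
  have h1 := h'.1
  have h2 : wlo nE nD (j / 2) % 2 = 0 := by unfold wlo; split_ifs <;> omega
  have h3 : whi nE nD (j / 2) % 2 = 0 := by unfold whi; split_ifs <;> omega
  unfold wdeg
  rw [if_neg (by omega), if_neg (by omega)]

theorem loc_emb (u' v' : ℕ → ℕ → ℝ) (i j : ℕ) :
    loc (wPre nE nD U W T t β) T (emb nE nD u v) (emb nE nD u' v') i j =
      (if hAct nE nD i j then (t / 2 * wdeg nE nD (j / 2) i + β) * (u (j / 2) i * u' (j / 2) i)
        else 0) +
      (if hAct nE nD j i then (t / 2 * wdeg nE nD (i / 2) j + β) * (v (i / 2) j * v' (i / 2) j)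
        else 0) -
      (if hAct nE nD i j ∧ hAct nE nD j i then β * nW nE nD * (cpl nE nD U W (j / 2) (i / 2) *
        (u (j / 2) i * v' (i / 2) j + u' (j / 2) i * v (i / 2) j)) else 0) := by
  have w00 := wPre_cl (nE := nE) (nD := nD) U W T t β i j 0 0 (by omega) (by omega)
  have w10 := wPre_cl (nE := nE) (nD := nD) U W T t β i j 1 0 (by omega) (by omega)
  have w01 := wPre_cl (nE := nE) (nD := nD) U W T t β i j 0 1 (by omega) (by omega)
  have w11 := wPre_cl (nE := nE) (nD := nD) U W T t β i j 1 1 (by omega) (by omega)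
  simp only [add_zero] at w00 w10 w01
  simp only [loc, cl, emb00, emb10, emb01, emb11, w00, w10, w01, w11]
  by_cases h : hAct nE nD i j <;> by_cases h' : hAct nE nD j i <;>
    simp only [h, h', and_self, and_false, false_and, if_true, if_false]
  · have h1 := rho_sq h
    have h2 := rho_sq h'
    have h3 := rho_cross h h'
    rw [tau_neg h, tau_neg h', wdeg_cross h', wdeg_cross h]
    push_cast
    linear_combination 4 * (t + β) * (u (j / 2) i * u' (j / 2) i) * h1 +
      4 * (t + β) * (v (i / 2) j * v' (i / 2) j) * h2 -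
      4 * β * nW nE nD * (cpl nE nD U W (j / 2) (i / 2) *
        (u (j / 2) i * v' (i / 2) j + u' (j / 2) i * v (i / 2) j)) * h3
  · have h1 := rho_sq h
    rw [tau_one h', rho_zero h']
    linear_combination 4 * (t / 2 * wdeg nE nD (j / 2) i + β) * (u (j / 2) i * u' (j / 2) i) * h1
  · have h1 := rho_sq h'
    rw [tau_one h, rho_zero h]
    linear_combination 4 * (t / 2 * wdeg nE nD (i / 2) j + β) * (v (i / 2) j * v' (i / 2) j) * h1
  · rw [rho_zero h, rho_zero h']; ring

theorem bx_emb (u' v' : ℕ → ℕ → ℝ) (i j : ℕ) :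
    bx (emb nE nD u v) (emb nE nD u' v') i j = if hAct nE nD i j then
      (if hAct nE nD (i + 1) j then
        (u (j / 2) i * u' (j / 2) (i + 1) + u (j / 2) (i + 1) * u' (j / 2) i) / 2 else 0)
      else 0 := by
  simp only [bx, show 2 * i + 2 = 2 * (i + 1) by ring, emb00, emb10, emb01, emb11]
  by_cases h : hAct nE nD i j <;> by_cases h' : hAct nE nD (i + 1) j <;>
    simp only [h, h', if_true, if_false]
  · have h1 := rho_succ h h'
    have h2 : rho nE nD j i * rho nE nD j (i + 1) = 0 := by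
      by_cases h3 : hAct nE nD j i
      · rw [rho_zero (i := j) (j := i + 1) fun h4 => by have := h3.1; have := h4.1; omega, mul_zero]
      · rw [rho_zero h3, zero_mul]
    rw [tau_neg h, tau_neg h']
    linear_combination
      2 * (u (j / 2) i * u' (j / 2) (i + 1) + u (j / 2) (i + 1) * u' (j / 2) i) * h1 +
      2 * (v (i / 2) j * v' ((i + 1) / 2) j + v ((i + 1) / 2) j * v' (i / 2) j) * h2
  · rw [rho_zero h', rho_zero (i := j) (j := i + 1) (by rw [hAct_iff] at *; omega)]; ring
  · rw [rho_zero h, rho_zero (i := j) (j := i) (by rw [hAct_iff] at *; omega)]; ring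
  · rw [rho_zero h, rho_zero h']
    by_cases h3 : hAct nE nD j i
    · rw [rho_zero (i := j) (j := i + 1) fun h4 => by have := h3.1; have := h4.1; omega]; ring
    · rw [rho_zero h3]; ring

theorem row_sum (u' : ℕ → ℕ → ℝ) :
    ∑ i ∈ range (2 * nI nE nD), ∑ j ∈ range (2 * nI nE nD),
      ((if hAct nE nD i j then (t / 2 * wdeg nE nD (j / 2) i + β) * (u (j / 2) i * u' (j / 2) i)
        else 0) - t * if hAct nE nD i j then (if hAct nE nD (i + 1) j then
          (u (j / 2) i * u' (j / 2) (i + 1) + u (j / 2) (i + 1) * u' (j / 2) i) / 2 else 0)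
        else 0) = t / 2 * wlap nE nD u u' + β * wip nE nD u u' := by
  simp only [sum_sub_distrib, ← mul_sum, sum_hAct, show ∀ J, (2 * J + 1) / 2 = J by omega]
  unfold wlap wip
  rw [mul_sum, mul_sum, mul_sum, ← sum_sub_distrib, ← sum_add_distrib]
  refine sum_congr rfl fun J hJ => ?_
  have h1 := path_deg (wlo_le hJ) fun i => u J i * u' J i
  have h2 : ∑ i ∈ wire nE nD J, (if hAct nE nD (i + 1) (2 * J + 1) then
      (u J i * u' J (i + 1) + u J (i + 1) * u' J i) / 2 else 0) =
      ∑ i ∈ Ico (wlo nE nD J) (whi nE nD J), (u J i * u' J (i + 1) + u J (i + 1) * u' J i) / 2 := by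
    rw [← sum_filter]
    refine sum_congr ?_ fun _ _ => rfl
    ext i
    simp only [mem_filter, hAct_odd, hJ, mem_wire, mem_Ico, true_and]
    omega
  rw [h2]
  have h3 : ∑ i ∈ wire nE nD J, (t / 2 * wdeg nE nD J i + β) * (u J i * u' J i) =
      t / 2 * ∑ i ∈ Ico (wlo nE nD J) (whi nE nD J), (u J i * u' J i + u J (i + 1) * u' J (i + 1)) +
        β * ∑ i ∈ wire nE nD J, u J i * u' J i := by
    rw [← h1, wire, mul_sum, mul_sum, ← sum_add_distrib]
    exact sum_congr rfl fun i _ => by unfold wdeg; ring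
  rw [h3, add_sub_right_comm]
  congr 1
  rw [mul_sum, mul_sum, mul_sum, ← sum_sub_distrib]
  exact sum_congr rfl fun i _ => by ring

theorem Bf_emb (u' v' : ℕ → ℕ → ℝ) :
    Bf (2 * nI nE nD) (wPre nE nD U W T t β) T t (emb nE nD u v) (emb nE nD u' v') =
      Blow nE nD U W t β u v u' v' := by
  have h1 := row_sum (nE := nE) (nD := nD) u t β u'
  have h2 := row_sum (nE := nE) (nD := nD) v t β v'
  rw [sum_comm] at h2
  have h3 := sum_cross (nE := nE) (nD := nD) fun i j =>
    β * nW nE nD * (cpl nE nD U W (j / 2) (i / 2) *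
      (u (j / 2) i * v' (i / 2) j + u' (j / 2) i * v (i / 2) j))
  simp only [show ∀ J, (2 * J + 1) / 2 = J by omega] at h3
  have h4 := Eq.trans (a := β * nW nE nD * (wcr nE nD U W u v' + wcr nE nD U W u' v)) (by
    unfold wcr
    simp only [← sum_add_distrib, mul_sum]
    refine sum_congr rfl fun J _ => sum_congr rfl fun I _ => ?_
    split_ifs <;> ring) h3.symm
  unfold Blow Bf
  rw [h4, mul_add, mul_add, add_add_add_comm, ← h1, ← h2]
  simp only [← sum_add_distrib, ← sum_sub_distrib, tr_emb, bx_emb, loc_emb]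
  exact sum_congr rfl fun i _ => sum_congr rfl fun j _ => by ring

end Vale.Agent.P370Z.GRID
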