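import Vale.Agent.P370Z.GRID.Low3
import Vale.Agent.P370Z.GRID.Emb

/-!
# P370, block GRID: the lower bound for vectors orthogonal to the core orbitals
-/

namespace Vale.Agent.P370Z.GRID

theorem lowPerp5 {nE nD : ℕ} {U W : ℕ → ℕ → ℝ} {T t β S : ℝ}
    (hU : Tight (fun (e : Fin nE) (d : Fin nD) => U e d))
    (hW : Tight (fun (e : Fin nE) (d : Fin nD) => W e d)) (hS : 2 ≤ S) (hK : (nK nE nD : ℝ) ≤ S)
    (hβ : 0 < β) (h1 : S ^ 5 * β ≤ t) (h2 : S ^ 5 * t ≤ T) :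
    LowPerp nE nD U W T t β (β / 40) (S ^ 5 * (β ^ 2 / t + t ^ 2 / T)) :=
  Low.lowPerp_of (fun u v => Bf_emb u v U W T t β u v) (fun u v f => If_emb u v f) hU hW hS hK hβ
    h1 h2

theorem lowPerp : ∃ κ : ℕ, ∀ (nE nD : ℕ) (U W : ℕ → ℕ → ℝ) (T t β S : ℝ), 1 ≤ nE → 1 ≤ nD →
    Tight (fun (e : Fin nE) (d : Fin nD) => U e d) →
    Tight (fun (e : Fin nE) (d : Fin nD) => W e d) → 2 ≤ S → (nK nE nD : ℝ) ≤ S → 0 < β →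
    S ^ κ * β ≤ t → S ^ κ * t ≤ T →
    LowPerp nE nD U W T t β (β / 40) (S ^ κ * (β ^ 2 / t + t ^ 2 / T)) :=
  ⟨5, fun _ _ _ _ _ _ _ _ _ _ hU hW hS hK hβ h1 h2 => lowPerp5 hU hW hS hK hβ h1 h2⟩

end Vale.Agent.P370Z.GRID
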