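import Vale.Agent.P370Z.GRID.Core
import Vale.Agent.P370Z.GRID.Low
import Vale.Agent.P370Z.GRID.GeoOK

/-!
# P370, block GRID: the grid model
-/

namespace Vale.Agent.P370Z

open MeasureTheory Finset

theorem grid : ∃ κ : ℕ, ∀ {B : Type} (nE nD : ℕ) (U W : ℕ → ℕ → ℝ) (blk : Fin nD → B)
    (T t β S : ℝ), 1 ≤ nE → 1 ≤ nD →
    Tight (fun (e : Fin nE) (d : Fin nD) => U e d) →
    Tight (fun (e : Fin nE) (d : Fin nD) => W e d) →
    BlkOK blk (fun (e : Fin nE) (d : Fin nD) => U e d) (fun (e : Fin nE) (d : Fin nD) => W e d) →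
    2 ≤ S → (nK nE nD : ℝ) ≤ S → 0 < β → S ^ κ * β ≤ t → S ^ κ * t ≤ T →
    (∀ k l, |wGrid nE nD U W T t β k l| ≤ 8 * T) ∧
    ∃ (O : Core nE nD ⊕ Fin nD → Fin (nK nE nD) × Fin (nK nE nD) → ℝ)
      (Rc : Core nE nD → Fin (nK nE nD) × Fin (nK nE nD) → ℝ),
      GridOK (gridM (nK nE nD) (lapM (nK nE nD) (hopG T t)) (wGrid nE nD U W T t β)) O Rc
        (2 * T - t - β) (β / 40) (S ^ κ * (β ^ 2 / t + t ^ 2 / T)) (S ^ κ * t) ∧
      GridGeo O blk (fun (e : Fin nE) (d : Fin nD) => 3 / √(68 * nW nE nD) * U e d)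
        (fun (e : Fin nE) (d : Fin nD) => 3 / √(68 * nW nE nD) * W e d)
        (fun e => nE + nD + e) (isMain nE nD) := by
  refine ⟨5, fun nE nD U W blk T t β S _ _ hU hW hb hS hK hβ h1 h2 => ?_⟩
  have hS0 : 0 < S := by linarith
  have hS5 : 0 < S ^ 5 := by positivity
  have ht : 0 < t := lt_of_lt_of_le (by positivity) h1
  have hT : 0 < T := lt_of_lt_of_le (by positivity) h2
  have e3 : 8 ≤ S ^ 3 := by
    calc (8 : ℝ) = 2 ^ 3 := by norm_num
      _ ≤ S ^ 3 := by gcongr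
  have e2 : 4 ≤ S ^ 2 := by nlinarith
  have e5 : 8 * S ^ 2 ≤ S ^ 5 := by nlinarith
  have hn : (nW nE nD : ℝ) ≤ S := by
    refine le_trans ?_ hK
    exact_mod_cast (by unfold nW nK nI; omega)
  have hm : 2 * ((2 * nI nE nD : ℕ) : ℝ) ≤ S := by
    refine le_trans (le_of_eq ?_) hK
    exact_mod_cast (GRID.nK_eq nE nD).symm
  have k1 : (nW nE nD : ℝ) * β ≤ t :=
    le_trans (mul_le_mul_of_nonneg_right (by nlinarith) hβ.le) h1
  have k2 : 4 * t ≤ T := le_trans (mul_le_mul_of_nonneg_right (by nlinarith) ht.le) h2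
  have k3 : 4 * ((2 * nI nE nD : ℕ) : ℝ) ^ 2 ≤ S ^ 2 := by
    have := pow_le_pow_left₀ (by positivity) hm 2
    linarith
  refine ⟨GRID.GeoOK.wGrid_bd hU hW hβ k1 k2, GRID.OO nE nD U W, GRID.RR nE nD U W T t β,
    GRID.low_of_lowPerp T hU hW ht.le hβ.le (by positivity) ?_
      (GRID.lowPerp5 hU hW hS hK hβ h1 h2),
    GRID.GeoOK.gridGeo (fun μ => ?_) hb⟩
  · nlinarith [mul_le_mul_of_nonneg_left k3 ht.le, mul_le_mul_of_nonneg_right e5 ht.le,
      mul_le_mul_of_nonneg_right e2 ht.le]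
  · have := GRID.OO_on hU hW μ μ
    simpa [idm, pow_two] using this

end Vale.Agent.P370Z
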