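import Vale.Agent.P370Z.GRID.Val

/-!
# P370, block GRID: the core orbitals; the clauses of `GridOK`
-/

namespace Vale.Agent.P370Z.GRID

open Finset

/-! ### abstract linear algebra -/

section Abstract

variable {R C D : Type} [Fintype R] [Fintype C] [DecidableEq C] [Fintype D] [DecidableEq D]

/-- the form of a matrix -/
def Bq (h : R → R → ℝ) (a b : R → ℝ) : ℝ := ∑ κ, ∑ κ', a κ * h κ κ' * b κ'

omit [DecidableEq C] in
theorem Bq_sub_left (h : R → R → ℝ) (a b : R → ℝ) (α : C → ℝ) (O : C → R → ℝ) :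
    Bq h (fun κ => a κ - ∑ c, α c * O c κ) b = Bq h a b - ∑ c, α c * Bq h (O c) b := by
  unfold Bq
  simp only [sub_mul, sum_sub_distrib, sum_mul, mul_sum]
  congr 1
  rw [sum_comm]
  refine (sum_congr rfl fun _ _ => sum_comm).trans (sum_comm.trans ?_)
  refine sum_congr rfl fun c _ => sum_comm.trans ?_
  exact sum_congr rfl fun _ _ => sum_congr rfl fun _ _ => by ring

omit [DecidableEq C] in
theorem ip_sub_right (a b : R → ℝ) (α : C → ℝ) (O : C → R → ℝ) :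
    ∑ κ, b κ * (a κ - ∑ c, α c * O c κ) = ∑ κ, b κ * a κ - ∑ c, α c * ∑ κ, b κ * O c κ := by
  simp only [mul_sub, sum_sub_distrib, mul_sum]
  congr 1
  rw [sum_comm]
  exact sum_congr rfl fun _ _ => sum_congr rfl fun _ _ => by ring

omit [Fintype C] [DecidableEq C] in
theorem ip_res (h : R → R → ℝ) (o a : R → ℝ) (Tc : ℝ) :
    ∑ κ, (∑ κ', h κ κ' * o κ' + Tc * o κ) * a κ = Bq h a o + Tc * ∑ κ, o κ * a κ := by
  unfold Bq
  simp only [add_mul, sum_add_distrib, sum_mul, mul_sum]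
  congr 1
  · exact sum_congr rfl fun _ _ => sum_congr rfl fun _ _ => by ring
  · exact sum_congr rfl fun _ _ => by ring

theorem low_of_perp (h : R → R → ℝ) (O : C ⊕ D → R → ℝ) {Tc γ δ : ℝ} (hδ : 0 ≤ δ)
    (hs : ∀ a b, Bq h a b = Bq h b a) (on : ∀ μ ν, ∑ κ, O μ κ * O ν κ = idm μ ν)
    (hcc : ∀ c c', Bq h (O (.inl c)) (O (.inl c')) = -Tc * idm c c')
    (hp : ∀ a : R → ℝ, (∀ c, ∑ κ, O (.inl c) κ * a κ = 0) →
      -δ * (∑ κ, a κ * a κ) + γ * ((∑ κ, a κ * a κ) - ∑ d, (∑ κ, O (.inr d) κ * a κ) ^ 2) ≤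
        Bq h a a) (a : R → ℝ) :
    -δ * (∑ κ, a κ ^ 2) - Tc * ∑ c, (∑ κ, O (.inl c) κ * a κ) ^ 2 +
      γ * ((∑ κ, a κ ^ 2) - ∑ μ, (∑ κ, O μ κ * a κ) ^ 2) +
      2 * ∑ c, (∑ κ, O (.inl c) κ * a κ) *
        (∑ κ, (∑ κ', h κ κ' * O (.inl c) κ' + Tc * O (.inl c) κ) * a κ) ≤ Bq h a a := by
  set α : C → ℝ := fun c => ∑ κ, O (.inl c) κ * a κ with hα
  set a' : R → ℝ := fun κ => a κ - ∑ c, α c * O (.inl c) κ with ha'
  have h1 : ∀ c, ∑ κ, O (.inl c) κ * a' κ = 0 := fun c => by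
    simp only [ha', ip_sub_right, on, idm, Sum.inl.injEq, mul_ite, mul_one, mul_zero, sum_ite_eq,
      mem_univ, if_true]
    exact sub_self _
  have h2 : ∀ d, ∑ κ, O (.inr d) κ * a' κ = ∑ κ, O (.inr d) κ * a κ := fun d => by
    simp [ha', ip_sub_right, on, idm]
  have h3 : ∑ κ, a' κ * a' κ = ∑ κ, a κ ^ 2 - ∑ c, α c ^ 2 := by
    have e1 : ∑ κ, a' κ * a' κ = ∑ κ, a' κ * a κ - ∑ c, α c * ∑ κ, a' κ * O (.inl c) κ :=
      ip_sub_right a a' α _
    have e2 : ∑ κ, a κ * a' κ = ∑ κ, a κ * a κ - ∑ c, α c * ∑ κ, a κ * O (.inl c) κ :=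
      ip_sub_right a a α _
    simp only [mul_comm _ (O _ _), h1, mul_zero, sum_const_zero, sub_zero] at e1 e2
    rw [e1]
    simp only [mul_comm (a' _), e2, pow_two, hα]
  have h4 : ∀ c, Bq h (O (.inl c)) a' = Bq h a (O (.inl c)) + Tc * α c := fun c => by
    rw [hs, ha', Bq_sub_left]
    simp only [hcc, idm, mul_ite, mul_one, mul_zero, sum_ite_eq', mem_univ, if_true]
    ring
  have h8 : ∑ c, α c * (Bq h a (O (.inl c)) + Tc * α c) =
      ∑ c, α c * Bq h a (O (.inl c)) + Tc * ∑ c, α c ^ 2 := by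
    rw [mul_sum, ← sum_add_distrib]
    exact sum_congr rfl fun _ _ => by ring
  have h5 : Bq h a' a' = Bq h a a - 2 * ∑ c, α c * Bq h a (O (.inl c)) - Tc * ∑ c, α c ^ 2 := by
    have e1 : Bq h a' a' = Bq h a a' - ∑ c, α c * Bq h (O (.inl c)) a' := Bq_sub_left h a a' α _
    have e2 : Bq h a' a = Bq h a a - ∑ c, α c * Bq h (O (.inl c)) a := Bq_sub_left h a a α _
    rw [e1, hs a a', e2]
    simp only [h4, hs (O _) a, h8]
    ring
  have h6 := hp a' h1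
  simp only [h2, h3, h5] at h6
  have h7 : 0 ≤ δ * ∑ c, α c ^ 2 := mul_nonneg hδ (sum_nonneg fun _ _ => sq_nonneg _)
  simp only [ip_res, Fintype.sum_sum_type]
  change -δ * _ - Tc * ∑ c, α c ^ 2 + γ * (_ - (∑ c, α c ^ 2 + _)) +
    2 * ∑ c, α c * (_ + Tc * α c) ≤ _
  rw [h8]
  linarith

end Abstract

variable {nE nD : ℕ}

theorem oc_cl (i j i' j' p q : ℕ) (hp : p < 2) (hq : q < 2) :
    oc i j (2 * i' + p) (2 * j' + q) = if i' = i ∧ j' = j then 1 / 2 else 0 := by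
  unfold oc
  rw [show (2 * i' + p) / 2 = i' by omega, show (2 * j' + q) / 2 = j' by omega]

theorem oc00 (i j i' j' : ℕ) : oc i j (2 * i') (2 * j') = if i' = i ∧ j' = j then 1 / 2 else 0 :=
  oc_cl i j i' j' 0 0 (by omega) (by omega)
theorem oc10 (i j i' j' : ℕ) :
    oc i j (2 * i' + 1) (2 * j') = if i' = i ∧ j' = j then 1 / 2 else 0 :=
  oc_cl i j i' j' 1 0 (by omega) (by omega)
theorem oc01 (i j i' j' : ℕ) :
    oc i j (2 * i') (2 * j' + 1) = if i' = i ∧ j' = j then 1 / 2 else 0 :=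
  oc_cl i j i' j' 0 1 (by omega) (by omega)
theorem oc11 (i j i' j' : ℕ) :
    oc i j (2 * i' + 1) (2 * j' + 1) = if i' = i ∧ j' = j then 1 / 2 else 0 :=
  oc_cl i j i' j' 1 1 (by omega) (by omega)

theorem tr_oc (i j : ℕ) : tr (oc i j) = oc j i := by
  funext k l; simp only [tr, oc, and_comm]

theorem abs_oc_le (i j k l : ℕ) : |oc i j k l| ≤ 1 / 2 := by
  unfold oc; split_ifs <;> norm_num

theorem sum_delta2 {m i j : ℕ} (hi : i < m) (hj : j < m) (F : ℕ → ℕ → ℝ) :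
    ∑ i' ∈ range m, ∑ j' ∈ range m, (if i' = i ∧ j' = j then F i' j' else 0) = F i j := by
  simp only [ite_and]
  rw [sum_comm]
  simp only [sum_ite_eq', mem_range, hi, hj, if_true]

theorem If_oc {m i j : ℕ} (hi : i < m) (hj : j < m) (f : ℕ → ℕ → ℝ) :
    If m (oc i j) f = cl f i j / 2 := by
  rw [← sum_delta2 hi hj fun i j => cl f i j / 2]
  refine sum_congr rfl fun i' _ => sum_congr rfl fun j' _ => ?_
  simp only [cl, oc00, oc10, oc01, oc11]
  split_ifs <;> ring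

variable (U W : ℕ → ℕ → ℝ) (T t β : ℝ)

theorem Bf_oc {i j : ℕ} (h : hAct nE nD i j) (h' : hAct nE nD j i) (f : ℕ → ℕ → ℝ) :
    Bf (2 * nI nE nD) (wPre nE nD U W T t β) T t (oc i j) f + (2 * T - t - β) * (cl f i j / 2) =
      -(β * nW nE nD * cpl nE nD U W (j / 2) (i / 2) * (-1) ^ (i / 2 + j / 2) *
        ((f (2 * i) (2 * j) - f (2 * i + 1) (2 * j) - f (2 * i) (2 * j + 1) +
          f (2 * i + 1) (2 * j + 1)) / 2)) -
      t * ∑ i' ∈ range (2 * nI nE nD), ∑ j' ∈ range (2 * nI nE nD),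
        (bx (oc i j) f i' j' + bx (oc j i) (tr f) j' i') := by
  have h1 : ∀ i' j', loc (wPre nE nD U W T t β) T (oc i j) f i' j' = if i' = i ∧ j' = j then
      cl (fun k l => wPre nE nD U W T t β k l * f k l) i' j' / 2 - T * cl f i' j' else 0 := by
    intro i' j'
    simp only [loc, cl, oc00, oc10, oc01, oc11]
    split_ifs <;> ring
  have hl := hAct_lt h
  have w00 := wPre_cl (nE := nE) (nD := nD) U W T t β i j 0 0 (by omega) (by omega)
  have w10 := wPre_cl (nE := nE) (nD := nD) U W T t β i j 1 0 (by omega) (by omega)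
  have w01 := wPre_cl (nE := nE) (nD := nD) U W T t β i j 0 1 (by omega) (by omega)
  have w11 := wPre_cl (nE := nE) (nD := nD) U W T t β i j 1 1 (by omega) (by omega)
  simp only [add_zero] at w00 w10 w01
  rw [if_pos ⟨h, h'⟩] at w00 w10 w01 w11
  unfold Bf
  simp only [sub_sub, ← mul_add, sum_sub_distrib, ← mul_sum, h1, tr_oc]
  rw [sum_delta2 (by omega) (by omega)]
  simp only [cl, w00, w10, w01, w11]
  ring

theorem bx_oc_oc {i j i₂ j₂ : ℕ} (h : i % 2 = 1) (h₂ : i₂ % 2 = 1) (i' j' : ℕ) :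
    bx (oc i j) (oc i₂ j₂) i' j' = 0 := by
  simp only [bx, show 2 * i' + 2 = 2 * (i' + 1) by ring, oc00, oc10, oc01, oc11]
  split_ifs <;> first | omega | ring

theorem abs_bx_le {f g : ℕ → ℕ → ℝ} {A N : ℝ} (hf : ∀ k l, |f k l| ≤ A) (hg : ∀ k l, |g k l| ≤ N)
    (i j : ℕ) : |bx f g i j| ≤ 4 * (A * N) := by
  have h : ∀ k l k' l', |f k l * g k' l'| ≤ A * N := fun k l k' l' => by
    rw [abs_mul]
    exact mul_le_mul (hf k l) (hg k' l') (abs_nonneg _) ((abs_nonneg _).trans (hf k l))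
  unfold bx
  have h1 := abs_le.1 (h (2 * i + 1) (2 * j) (2 * i + 2) (2 * j))
  have h2 := abs_le.1 (h (2 * i + 2) (2 * j) (2 * i + 1) (2 * j))
  have h3 := abs_le.1 (h (2 * i + 1) (2 * j + 1) (2 * i + 2) (2 * j + 1))
  have h4 := abs_le.1 (h (2 * i + 2) (2 * j + 1) (2 * i + 1) (2 * j + 1))
  rw [abs_le]
  constructor <;> linarith

theorem ext_core (c : Core nE nD) : ext (OO nE nD U W (.inl c)) = oc c.1.1 c.1.2 :=
  ext_eq (fun _ => rfl) fun k l h => if_neg fun h' => by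
    have := c.1.1.2
    have := c.1.2.2
    rw [nK_eq] at h
    omega

theorem ext_val (d : Fin nD) :
    ext (OO nE nD U W (.inr d)) = emb nE nD (vam nE nD U d) (vam nE nD W d) :=
  ext_eq (fun _ => rfl) (emb_zero _ _)

theorem ip_core (c : Core nE nD) (a : Fin (nK nE nD) × Fin (nK nE nD) → ℝ) :
    ∑ κ, OO nE nD U W (.inl c) κ * a κ = cl (ext a) c.1.1 c.1.2 / 2 := by
  rw [ip_eq', ext_core, If_oc c.1.1.2 c.1.2.2]

theorem cl_oc (c c' : Core nE nD) : cl (oc c'.1.1 c'.1.2) c.1.1 c.1.2 / 2 = idm c c' := by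
  simp only [cl, oc00, oc10, oc01, oc11, idm, Subtype.ext_iff, Prod.ext_iff, Fin.ext_iff]
  split_ifs <;> norm_num

variable {U W}

theorem OO_on (hU : Tight fun (e : Fin nE) (d : Fin nD) => U e d)
    (hW : Tight fun (e : Fin nE) (d : Fin nD) => W e d) (μ ν : Core nE nD ⊕ Fin nD) :
    ∑ κ, OO nE nD U W μ κ * OO nE nD U W ν κ = idm μ ν := by
  have h : ∀ (c : Core nE nD) (d : Fin nD),
      ∑ κ, OO nE nD U W (.inl c) κ * OO nE nD U W (.inr d) κ = 0 := fun c d => by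
    rw [ip_core, ext_val, cl_emb_cross _ _ c.2.1 c.2.2, zero_div]
  rcases μ with c | d <;> rcases ν with c' | d'
  · rw [ip_core, ext_core, cl_oc]; simp [idm]
  · rw [h]; simp [idm]
  · simp only [mul_comm (OO nE nD U W (.inr d) _), h]; simp [idm]
  · rw [ip_eq', ext_val, ext_val, If_emb_emb, wip_vam_vam hU, wip_vam_vam hW]
    simp [idm]

theorem Bq_comm (a b : Fin (nK nE nD) × Fin (nK nE nD) → ℝ) :
    Bq (hh nE nD U W T t β) a b = Bq (hh nE nD U W T t β) b a := by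
  unfold Bq; rw [form_eq', form_eq', Bf_comm]

theorem Bq_core (c c' : Core nE nD) :
    Bq (hh nE nD U W T t β) (OO nE nD U W (.inl c)) (OO nE nD U W (.inl c')) =
      -(2 * T - t - β) * idm c c' := by
  have h := Bf_oc U W T t β c.2.1 c.2.2 (oc c'.1.1 c'.1.2)
  simp only [tr_oc, bx_oc_oc c.2.1.1 c'.2.1.1, bx_oc_oc c.2.2.1 c'.2.2.1, oc00, oc10, oc01, oc11,
    cl_oc] at h
  unfold Bq
  rw [form_eq', ext_core, ext_core]
  simp at h
  linarith

theorem Bq_val (hU : Tight fun (e : Fin nE) (d : Fin nD) => U e d)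
    (hW : Tight fun (e : Fin nE) (d : Fin nD) => W e d) (d d' : Fin nD) :
    Bq (hh nE nD U W T t β) (OO nE nD U W (.inr d)) (OO nE nD U W (.inr d')) = 0 := by
  unfold Bq
  rw [form_eq', ext_val, ext_val, Bf_emb, Blow_vam hU hW]

theorem RR_orth (hU : Tight fun (e : Fin nE) (d : Fin nD) => U e d)
    (hW : Tight fun (e : Fin nE) (d : Fin nD) => W e d) (c c' : Core nE nD) :
    ∑ κ, OO nE nD U W (.inl c') κ * RR nE nD U W T t β c κ = 0 := by
  simp only [mul_comm (OO nE nD U W (.inl c') _), RR]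
  rw [ip_res, Bq_core, OO_on hU hW, idm_comm c']
  simp only [idm, Sum.inl.injEq]
  split_ifs <;> ring

theorem RR_norm (hU : Tight fun (e : Fin nE) (d : Fin nD) => U e d)
    (hW : Tight fun (e : Fin nE) (d : Fin nD) => W e d) {t β τ : ℝ} (ht : 0 ≤ t) (hβ : 0 ≤ β)
    (hτ : 2 * (β * nW nE nD) + 4 * t * (2 * nI nE nD : ℕ) ^ 2 ≤ τ) (c : Core nE nD) :
    ∑ κ, RR nE nD U W T t β c κ ^ 2 ≤ τ ^ 2 := by
  set a := RR nE nD U W T t β c with ha
  have h0 : 0 ≤ ∑ κ, a κ ^ 2 := sum_nonneg fun _ _ => sq_nonneg _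
  set N := √(∑ κ, a κ ^ 2) with hN
  have hN0 : 0 ≤ N := Real.sqrt_nonneg _
  have hN2 : N ^ 2 = ∑ κ, a κ ^ 2 := Real.sq_sqrt h0
  have hf : ∀ k l, |ext a k l| ≤ N := fun k l => by
    unfold ext
    split_ifs
    · exact Real.abs_le_sqrt (single_le_sum (f := fun κ => a κ ^ 2) (fun _ _ => sq_nonneg _)
        (mem_univ _))
    · simpa using hN0
  have h1 : ∑ κ, a κ ^ 2 = Bf (2 * nI nE nD) (wPre nE nD U W T t β) T t (oc c.1.1 c.1.2) (ext a) +
      (2 * T - t - β) * (cl (ext a) c.1.1 c.1.2 / 2) := by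
    rw [← ip_core U W, ← ext_core U W, ← form_eq']
    have := ip_res (hh nE nD U W T t β) (OO nE nD U W (.inl c)) a (2 * T - t - β)
    rw [Bq_comm] at this
    simp only [pow_two]
    exact this
  rw [Bf_oc U W T t β c.2.1 c.2.2] at h1
  obtain ⟨I, hI⟩ : ∃ I, (c.1.1 : ℕ) = 2 * I + 1 := ⟨c.1.1 / 2, by have := c.2.2.1; omega⟩
  obtain ⟨J, hJ⟩ : ∃ J, (c.1.2 : ℕ) = 2 * J + 1 := ⟨c.1.2 / 2, by have := c.2.1.1; omega⟩
  have hc := c.2
  rw [hI, hJ, cross_iff] at hc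
  have h2 : |cpl nE nD U W (c.1.2 / 2) (c.1.1 / 2)| ≤ 1 := by
    rw [show (c.1.2 : ℕ) / 2 = J by omega, show (c.1.1 : ℕ) / 2 = I by omega]
    exact abs_cpl_le_one hU hW hc.1 hc.2.1 hc.2.2
  have h3 : |(ext a (2 * c.1.1) (2 * c.1.2) - ext a (2 * c.1.1 + 1) (2 * c.1.2) -
      ext a (2 * c.1.1) (2 * c.1.2 + 1) + ext a (2 * c.1.1 + 1) (2 * c.1.2 + 1)) / 2| ≤ 2 * N := by
    have e1 := abs_le.1 (hf (2 * c.1.1) (2 * c.1.2))
    have e2 := abs_le.1 (hf (2 * c.1.1 + 1) (2 * c.1.2))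
    have e3 := abs_le.1 (hf (2 * c.1.1) (2 * c.1.2 + 1))
    have e4 := abs_le.1 (hf (2 * c.1.1 + 1) (2 * c.1.2 + 1))
    rw [abs_le]
    constructor <;> linarith
  have hn : (0 : ℝ) ≤ β * nW nE nD := by positivity
  have h4 : |β * nW nE nD * cpl nE nD U W (c.1.2 / 2) (c.1.1 / 2) *
      (-1) ^ ((c.1.1 : ℕ) / 2 + c.1.2 / 2) *
      ((ext a (2 * c.1.1) (2 * c.1.2) - ext a (2 * c.1.1 + 1) (2 * c.1.2) -
      ext a (2 * c.1.1) (2 * c.1.2 + 1) + ext a (2 * c.1.1 + 1) (2 * c.1.2 + 1)) / 2)| ≤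
      β * nW nE nD * (2 * N) := by
    rw [abs_mul, abs_mul, abs_mul, abs_neg_one_pow, mul_one, abs_of_nonneg hn]
    exact mul_le_mul (mul_le_of_le_one_right hn h2) h3 (abs_nonneg _) hn
  have h5 : -∑ i' ∈ range (2 * nI nE nD), ∑ j' ∈ range (2 * nI nE nD),
      (bx (oc c.1.1 c.1.2) (ext a) i' j' + bx (oc c.1.2 c.1.1) (tr (ext a)) j' i') ≤
      ∑ _i' ∈ range (2 * nI nE nD), ∑ _j' ∈ range (2 * nI nE nD), 4 * N := by
    simp only [← sum_neg_distrib]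
    refine sum_le_sum fun i' _ => sum_le_sum fun j' _ => ?_
    have e1 := abs_le.1 (abs_bx_le (abs_oc_le c.1.1 c.1.2) hf i' j')
    have e2 := abs_le.1 (abs_bx_le (g := tr (ext a)) (abs_oc_le c.1.2 c.1.1)
      (fun k l => hf l k) j' i')
    linarith
  simp only [sum_const, card_range, nsmul_eq_mul] at h5
  have h6 := mul_le_mul_of_nonneg_left h5 ht
  have h7 := (abs_le.1 h4).1
  have h8 : N ^ 2 ≤ τ * N := by
    have := mul_le_mul_of_nonneg_right hτ hN0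
    rw [hN2, h1]
    nlinarith
  have hτ0 : 0 ≤ τ := le_trans (by positivity) hτ
  rw [← hN2]
  nlinarith [sq_nonneg (τ - N)]

theorem low_of_lowPerp (hU : Tight fun (e : Fin nE) (d : Fin nD) => U e d)
    (hW : Tight fun (e : Fin nE) (d : Fin nD) => W e d) {t β γ δ τ : ℝ} (ht : 0 ≤ t) (hβ : 0 ≤ β)
    (hδ : 0 ≤ δ) (hτ : 2 * (β * nW nE nD) + 4 * t * (2 * nI nE nD : ℕ) ^ 2 ≤ τ)
    (hl : LowPerp nE nD U W T t β γ δ) :
    GridOK (hh nE nD U W T t β) (OO nE nD U W) (RR nE nD U W T t β) (2 * T - t - β) γ δ τ where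
  on := OO_on hU hW
  orth := RR_orth T t β hU hW
  norm := RR_norm T hU hW ht hβ hτ
  low := low_of_perp _ _ hδ (Bq_comm T t β) (OO_on hU hW) (Bq_core T t β) fun a ha => by
    have h := hl (ext a) (fun k l => ext_zero a) fun i j h h' => by
      have h1 := hAct_lt h
      have h2 := ha ⟨(⟨i, by omega⟩, ⟨j, by omega⟩), h, h'⟩
      rw [ip_core] at h2
      simpa using h2
    unfold Bq
    rw [form_eq', ip_eq']
    simp only [ip_eq', ext_val, If_emb]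
    rwa [Fin.sum_univ_eq_sum_range fun d => (wip nE nD (vam nE nD U d) (amp nE nD (ext a)) +
      wip nE nD (vam nE nD W d) (amp nE nD (tr (ext a)))) ^ 2]
  core := fun c => by
    have := Bq_core (U := U) (W := W) T t β c c
    simpa [idm, Bq] using this
  val := Bq_val T t β hU hW

end Vale.Agent.P370Z.GRID
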