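import Vale.Agent.P370Z.Red

/-!
# P370, block GRID: definitions

Vectors on the grid of rooms are handled as functions `f k l` of two natural numbers (extension by
zero). A family `u J i` gives amplitudes on the wires: line `J`, cluster number `i` along the wire.
-/

namespace Vale.Agent.P370Z.GRID

open Finset

noncomputable section

/-- extension by zero -/
def ext {K : ℕ} (a : Fin K × Fin K → ℝ) (k l : ℕ) : ℝ :=
  if h : k < K ∧ l < K then a (⟨k, h.1⟩, ⟨l, h.2⟩) else 0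

/-- transposition -/
def tr (f : ℕ → ℕ → ℝ) (k l : ℕ) : ℝ := f l k

/-- sum over the four rooms of the cluster `(i, j)` -/
def cl (F : ℕ → ℕ → ℝ) (i j : ℕ) : ℝ :=
  F (2 * i) (2 * j) + F (2 * i + 1) (2 * j) + F (2 * i) (2 * j + 1) + F (2 * i + 1) (2 * j + 1)

/-- the form inside the cluster `(i, j)`: on-site energies `w` and hopping `T` -/
def loc (w : ℕ → ℕ → ℝ) (T : ℝ) (f g : ℕ → ℕ → ℝ) (i j : ℕ) : ℝ :=
  cl (fun k l => w k l * f k l * g k l) i j -
    T * ((f (2 * i) (2 * j) + f (2 * i + 1) (2 * j + 1)) *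
        (g (2 * i + 1) (2 * j) + g (2 * i) (2 * j + 1)) +
      (f (2 * i + 1) (2 * j) + f (2 * i) (2 * j + 1)) *
        (g (2 * i) (2 * j) + g (2 * i + 1) (2 * j + 1)))

/-- the hopping between the clusters `(i, j)` and `(i + 1, j)` -/
def bx (f g : ℕ → ℕ → ℝ) (i j : ℕ) : ℝ :=
  f (2 * i + 1) (2 * j) * g (2 * i + 2) (2 * j) + f (2 * i + 2) (2 * j) * g (2 * i + 1) (2 * j) +
  f (2 * i + 1) (2 * j + 1) * g (2 * i + 2) (2 * j + 1) +
  f (2 * i + 2) (2 * j + 1) * g (2 * i + 1) (2 * j + 1)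

/-- the bilinear form of the grid matrix on `m × m` clusters -/
def Bf (m : ℕ) (w : ℕ → ℕ → ℝ) (T t : ℝ) (f g : ℕ → ℕ → ℝ) : ℝ :=
  ∑ i ∈ range m, ∑ j ∈ range m, (loc w T f g i j - t * bx f g i j - t * bx (tr f) (tr g) j i)

/-- the inner product on `m × m` clusters -/
def If (m : ℕ) (f g : ℕ → ℕ → ℝ) : ℝ :=
  ∑ i ∈ range m, ∑ j ∈ range m, cl (fun k l => f k l * g k l) i j

variable (nE nD : ℕ)

/-- number of crossings of the row wire through the cluster row `j` at the clusters `< i` -/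
def ex (i j : ℕ) : ℕ := if isMain nE nD (j / 2) then i / 2 - nE else min (i / 2 - nE) nD

/-- the shape of the row modes in the room `(k, l)` -/
def rm (k l : ℕ) : ℝ :=
  if hAct nE nD (k / 2) (l / 2) then
    (-1) ^ (ex nE nD (k / 2) (l / 2) + if hAct nE nD (l / 2) (k / 2) then k else 0) / 2
  else 0

/-- the low energy vector with amplitudes `u` on the row wires and `v` on the column wires -/
def emb (u v : ℕ → ℕ → ℝ) (k l : ℕ) : ℝ :=
  rm nE nD k l * u (l / 4) (k / 2) + rm nE nD l k * v (k / 4) (l / 2)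

/-- the amplitude of `f` on the row wire `J` at the cluster `i`; for columns use `tr f` -/
def amp (f : ℕ → ℕ → ℝ) (J i : ℕ) : ℝ := cl (fun k l => rm nE nD k l * f k l) i (2 * J + 1)

/-- the lines which carry wires -/
def lines : Finset ℕ := Ico nE (2 * nE + nD)

/-- the clusters of a wire -/
def wire (J : ℕ) : Finset ℕ := Icc (wlo nE nD J) (whi nE nD J)

/-- inner product of wire amplitudes -/
def wip (u u' : ℕ → ℕ → ℝ) : ℝ := ∑ J ∈ lines nE nD, ∑ i ∈ wire nE nD J, u J i * u' J i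

/-- the path Laplacians of the wires -/
def wlap (u u' : ℕ → ℕ → ℝ) : ℝ := ∑ J ∈ lines nE nD, ∑ i ∈ Ico (wlo nE nD J) (whi nE nD J),
  (u J i - u J (i + 1)) * (u' J i - u' J (i + 1))

/-- the coupling of rows and columns at the crossings -/
def wcr (U W : ℕ → ℕ → ℝ) (u v : ℕ → ℕ → ℝ) : ℝ := ∑ J ∈ lines nE nD, ∑ I ∈ lines nE nD,
  if isMain nE nD J ∨ isMain nE nD I then cpl nE nD U W J I * (u J (2 * I + 1) * v I (2 * J + 1))
  else 0

/-- the form on low energy vectors -/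
def Blow (U W : ℕ → ℕ → ℝ) (t β : ℝ) (u v u' v' : ℕ → ℕ → ℝ) : ℝ :=
  t / 2 * (wlap nE nD u u' + wlap nE nD v v') + β * (wip nE nD u u' + wip nE nD v v') -
    β * nW nE nD * (wcr nE nD U W u v' + wcr nE nD U W u' v)

/-- the coefficient of the zero mode of line `J` in the valence orbital `d` -/
def coef (U : ℕ → ℕ → ℝ) (d J : ℕ) : ℝ :=
  5 / √68 * (if isMain nE nD J then (if J = nE + d then 1 else 0) else 3 / 5 * U (J - nE - nD) d)

/-- the wire amplitudes of the valence orbital `d` -/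
def vam (U : ℕ → ℕ → ℝ) (d J _i : ℕ) : ℝ := coef nE nD U d J / √(nW nE nD)

/-- the core orbital of the cluster `(i, j)` -/
def oc (i j k l : ℕ) : ℝ := if k / 2 = i ∧ l / 2 = j then 1 / 2 else 0

/-- the orbitals -/
def OO (U W : ℕ → ℕ → ℝ) : Core nE nD ⊕ Fin nD → Fin (nK nE nD) × Fin (nK nE nD) → ℝ
  | .inl c, κ => oc c.1.1 c.1.2 κ.1 κ.2
  | .inr d, κ => emb nE nD (vam nE nD U d) (vam nE nD W d) κ.1 κ.2

/-- the grid matrix -/
def hh (U W : ℕ → ℕ → ℝ) (T t β : ℝ) :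
    Fin (nK nE nD) × Fin (nK nE nD) → Fin (nK nE nD) × Fin (nK nE nD) → ℝ :=
  gridM (nK nE nD) (lapM (nK nE nD) (hopG T t)) (wGrid nE nD U W T t β)

/-- the residuals of the core orbitals -/
def RR (U W : ℕ → ℕ → ℝ) (T t β : ℝ) (c : Core nE nD) (κ : Fin (nK nE nD) × Fin (nK nE nD)) : ℝ :=
  ∑ κ', hh nE nD U W T t β κ κ' * OO nE nD U W (.inl c) κ' +
    (2 * T - t - β) * OO nE nD U W (.inl c) κ

/-- The clause `low` for vectors orthogonal to the core orbitals. -/
def LowPerp (U W : ℕ → ℕ → ℝ) (T t β γ δ : ℝ) : Prop :=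
  ∀ f : ℕ → ℕ → ℝ, (∀ k l, nK nE nD ≤ k ∨ nK nE nD ≤ l → f k l = 0) →
    (∀ i j, hAct nE nD i j → hAct nE nD j i → cl f i j = 0) →
    -δ * If (2 * nI nE nD) f f + γ * (If (2 * nI nE nD) f f - ∑ d ∈ range nD,
        (wip nE nD (vam nE nD U d) (amp nE nD f) +
          wip nE nD (vam nE nD W d) (amp nE nD (tr f))) ^ 2) ≤
      Bf (2 * nI nE nD) (wPre nE nD U W T t β) T t f f

end

end Vale.Agent.P370Z.GRID
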