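import Vale.Agent.P370Z.GRID.Defs

/-!
# P370, block GRID: the grid matrix in cluster form
-/

namespace Vale.Agent.P370Z.GRID

open Finset

theorem sum_pair (m : ℕ) (F : ℕ → ℝ) :
    ∑ k ∈ range (2 * m), F k = ∑ i ∈ range m, (F (2 * i) + F (2 * i + 1)) := by
  induction m with
  | zero => simp
  | succ m ih => rw [Nat.mul_succ, sum_range_succ, sum_range_succ, ih, sum_range_succ]; ring

theorem sum_cl (m : ℕ) (F : ℕ → ℕ → ℝ) :
    ∑ k ∈ range (2 * m), ∑ l ∈ range (2 * m), F k l =
      ∑ i ∈ range m, ∑ j ∈ range m, cl F i j := by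
  rw [sum_pair]
  refine sum_congr rfl fun i _ => ?_
  rw [sum_pair, sum_pair, ← sum_add_distrib]
  refine sum_congr rfl fun j _ => ?_
  unfold cl; ring

theorem ext_apply {K : ℕ} (a : Fin K × Fin K → ℝ) (κ : Fin K × Fin K) : ext a κ.1 κ.2 = a κ := by
  unfold ext; rw [dif_pos ⟨κ.1.2, κ.2.2⟩]

theorem ext_zero {K : ℕ} (a : Fin K × Fin K → ℝ) {k l : ℕ} (h : K ≤ k ∨ K ≤ l) : ext a k l = 0 := by
  unfold ext; rw [dif_neg (by omega)]

theorem ext_eq {K : ℕ} {a : Fin K × Fin K → ℝ} {f : ℕ → ℕ → ℝ} (h : ∀ κ, a κ = f κ.1 κ.2)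
    (h0 : ∀ k l, K ≤ k ∨ K ≤ l → f k l = 0) : ext a = f := by
  funext k l
  by_cases hk : k < K ∧ l < K
  · unfold ext; rw [dif_pos hk, h]
  · rw [ext_zero a (by omega), h0 k l (by omega)]

theorem sum_fin2 (K : ℕ) (F : ℕ → ℕ → ℝ) :
    ∑ κ : Fin K × Fin K, F κ.1 κ.2 = ∑ k ∈ range K, ∑ l ∈ range K, F k l := by
  rw [Fintype.sum_prod_type, ← Fin.sum_univ_eq_sum_range (fun k => ∑ l ∈ range K, F k l)]
  exact sum_congr rfl fun k _ => Fin.sum_univ_eq_sum_range (fun l => F k l) K

theorem ip_eq {m : ℕ} (a b : Fin (2 * m) × Fin (2 * m) → ℝ) :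
    ∑ κ, a κ * b κ = If m (ext a) (ext b) := by
  unfold If
  rw [← sum_cl, ← sum_fin2 _ fun k l => ext a k l * ext b k l]
  exact sum_congr rfl fun κ _ => by rw [ext_apply, ext_apply]

theorem lap_form (K : ℕ) (c f g : ℕ → ℝ) (hf : f K = 0) (hg : g K = 0) :
    ∑ k ∈ range K, ∑ k' ∈ range K, f k * lapM K c k k' * g k' =
      ∑ k ∈ range K, (lapM K c k k * f k * g k -
        c (k + 1) * (f k * g (k + 1) + f (k + 1) * g k)) := by
  have h1 : ∀ k k', f k * lapM K c k k' * g k' = (if k = k' then lapM K c k k * f k * g k else 0) -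
      (if k + 1 = k' then c (k + 1) * (f k * g (k + 1)) else 0) -
      (if k' + 1 = k then c (k' + 1) * (f (k' + 1) * g k') else 0) := by
    intro k k'
    by_cases h : k = k'
    · subst h
      rw [if_pos rfl, if_neg (by omega), if_neg (by omega)]; ring
    · by_cases h2 : k + 1 = k'
      · subst h2
        have : ¬ k + 1 + 1 = k := by omega
        simp [lapM, this]; ring
      · by_cases h3 : k' + 1 = k
        · subst h3
          have : ¬ k' = k' + 1 + 1 := by omega
          simp [lapM, this, h2]; ring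
        · have h4 : ¬ k' = k + 1 := fun e => h2 e.symm
          have h5 : ¬ k = k' + 1 := fun e => h3 e.symm
          simp [lapM, h, h2, h3, h4, h5]
  simp only [h1, sum_sub_distrib]
  rw [sum_comm (f := fun k k' => if k' + 1 = k then c (k' + 1) * (f (k' + 1) * g k') else 0)]
  simp only [sum_ite_eq, mul_add, sum_add_distrib, sub_sub]
  congr 1
  · exact sum_congr rfl fun k hk => if_pos hk
  · congr 1 <;> refine sum_congr rfl fun k hk => ?_ <;> split_ifs with h <;> try rfl
    all_goals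
      have : k + 1 = K := by simp only [mem_range] at hk h; omega
      simp [this, hf, hg]

theorem form_eq {K m : ℕ} (hK : K = 2 * m) (w : ℕ → ℕ → ℝ) (T t : ℝ) (a b : Fin K × Fin K → ℝ) :
    ∑ κ, ∑ κ', a κ * gridM K (lapM K (hopG T t)) (fun k l => w k l -
      lapM K (hopG T t) k k - lapM K (hopG T t) l l) κ κ' * b κ' =
      Bf m w T t (ext a) (ext b) := by
  set H := lapM K (hopG T t) with hH
  set f := ext a with hf
  set g := ext b with hg
  have h1 : ∀ κ : Fin K × Fin K, ∑ κ', a κ * gridM K H (fun k l => w k l - H k k - H l l) κ κ' * b κ' =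
      ∑ k' ∈ range K, f κ.1 κ.2 * H κ.1 k' * g k' κ.2 +
      ∑ l' ∈ range K, f κ.1 κ.2 * H κ.2 l' * g κ.1 l' +
      (w κ.1 κ.2 - H κ.1 κ.1 - H κ.2 κ.2) * f κ.1 κ.2 * g κ.1 κ.2 := by
    intro κ
    simp only [gridM, mul_add, add_mul, sum_add_distrib, idm]
    rw [← Fin.sum_univ_eq_sum_range (fun k' => f κ.1 κ.2 * H κ.1 k' * g k' κ.2),
      ← Fin.sum_univ_eq_sum_range (fun l' => f κ.1 κ.2 * H κ.2 l' * g κ.1 l')]
    congr 1
    · congr 1
      · rw [Fintype.sum_prod_type]
        refine sum_congr rfl fun k' _ => ?_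
        simp only [mul_ite, mul_one, mul_zero, ite_mul, zero_mul, sum_ite_eq, mem_univ, if_true]
        rw [hf, ext_apply, hg, ext_apply b (k', κ.2)]
      · rw [Fintype.sum_prod_type_right]
        refine sum_congr rfl fun l' _ => ?_
        simp only [mul_ite, mul_zero, ite_mul, zero_mul, one_mul, sum_ite_eq, mem_univ,
          if_true]
        rw [hf, ext_apply, hg, ext_apply b (κ.1, l')]
    · simp only [mul_ite, mul_one, mul_zero, ite_mul, zero_mul, sum_ite_eq, mem_univ, if_true]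
      rw [hf, ext_apply, hg, ext_apply]; ring
  refine (sum_congr rfl fun κ _ => h1 κ).trans ?_
  rw [sum_fin2 K fun k l => ∑ k' ∈ range K, f k l * H k k' * g k' l +
      ∑ l' ∈ range K, f k l * H l l' * g k l' + (w k l - H k k - H l l) * f k l * g k l]
  simp only [sum_add_distrib]
  rw [sum_comm (f := fun k l => ∑ k' ∈ range K, f k l * H k k' * g k' l)]
  have h2 : ∀ l, ∑ k ∈ range K, ∑ k' ∈ range K, f k l * H k k' * g k' l = _ := fun l =>
    lap_form K (hopG T t) (fun k => f k l) (fun k => g k l) (ext_zero a (Or.inl le_rfl))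
      (ext_zero b (Or.inl le_rfl))
  have h3 : ∀ k, ∑ l ∈ range K, ∑ l' ∈ range K, f k l * H l l' * g k l' = _ := fun k =>
    lap_form K (hopG T t) (f k) (g k) (ext_zero a (Or.inr le_rfl)) (ext_zero b (Or.inr le_rfl))
  simp only [h2, h3]
  rw [sum_comm]
  simp only [← sum_add_distrib]
  rw [show range K = range (2 * m) by rw [hK], sum_cl]
  unfold Bf
  refine sum_congr rfl fun i _ => sum_congr rfl fun j _ => ?_
  have e1 : ∀ i, hopG T t (2 * i + 1) = T := fun i => if_pos (by omega)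
  have e2 : ∀ i, hopG T t (2 * i + 1 + 1) = t := fun i => if_neg (by omega)
  simp only [cl, loc, bx, tr, e1, e2, ← hH]
  ring

theorem nK_eq (nE nD : ℕ) : nK nE nD = 2 * (2 * nI nE nD) := by unfold nK; ring

theorem ip_eq' {nE nD : ℕ} (a b : Fin (nK nE nD) × Fin (nK nE nD) → ℝ) :
    ∑ κ, a κ * b κ = If (2 * nI nE nD) (ext a) (ext b) := by
  have h := nK_eq nE nD
  generalize nK nE nD = K at a b h
  subst h
  exact ip_eq a b

theorem form_eq' {nE nD : ℕ} (U W : ℕ → ℕ → ℝ) (T t β : ℝ)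
    (a b : Fin (nK nE nD) × Fin (nK nE nD) → ℝ) :
    ∑ κ, ∑ κ', a κ * hh nE nD U W T t β κ κ' * b κ' =
      Bf (2 * nI nE nD) (wPre nE nD U W T t β) T t (ext a) (ext b) := by
  unfold hh wGrid
  exact form_eq (nK_eq nE nD) _ T t a b

/-! ### bilinearity -/

variable {m : ℕ} {w : ℕ → ℕ → ℝ} {T t : ℝ}

theorem Bf_comm (f g : ℕ → ℕ → ℝ) : Bf m w T t f g = Bf m w T t g f :=
  sum_congr rfl fun i _ => sum_congr rfl fun j _ => by simp only [cl, loc, bx, tr]; ring

theorem Bf_add_left (f f' g : ℕ → ℕ → ℝ) :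
    Bf m w T t (fun k l => f k l + f' k l) g = Bf m w T t f g + Bf m w T t f' g := by
  simp only [Bf, ← sum_add_distrib]
  exact sum_congr rfl fun i _ => sum_congr rfl fun j _ => by simp only [cl, loc, bx, tr]; ring

theorem Bf_add_right (f g g' : ℕ → ℕ → ℝ) :
    Bf m w T t f (fun k l => g k l + g' k l) = Bf m w T t f g + Bf m w T t f g' := by
  rw [Bf_comm, Bf_add_left, Bf_comm g, Bf_comm g']

theorem If_comm (f g : ℕ → ℕ → ℝ) : If m f g = If m g f :=
  sum_congr rfl fun i _ => sum_congr rfl fun j _ => by simp only [cl]; ring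

theorem If_add_left (f f' g : ℕ → ℕ → ℝ) :
    If m (fun k l => f k l + f' k l) g = If m f g + If m f' g := by
  simp only [If, ← sum_add_distrib]
  exact sum_congr rfl fun i _ => sum_congr rfl fun j _ => by simp only [cl]; ring

theorem If_add_right (f g g' : ℕ → ℕ → ℝ) :
    If m f (fun k l => g k l + g' k l) = If m f g + If m f g' := by
  rw [If_comm, If_add_left, If_comm g, If_comm g']

theorem If_tr (f g : ℕ → ℕ → ℝ) : If m (tr f) (tr g) = If m f g := by
  unfold If
  rw [sum_comm]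
  exact sum_congr rfl fun i _ => sum_congr rfl fun j _ => by simp only [cl, tr]; ring

theorem If_nonneg (f : ℕ → ℕ → ℝ) : 0 ≤ If m f f :=
  sum_nonneg fun i _ => sum_nonneg fun j _ => by
    simp only [cl]
    nlinarith [mul_self_nonneg (f (2 * i) (2 * j)), mul_self_nonneg (f (2 * i + 1) (2 * j)),
      mul_self_nonneg (f (2 * i) (2 * j + 1)), mul_self_nonneg (f (2 * i + 1) (2 * j + 1))]

end Vale.Agent.P370Z.GRID
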