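import Vale.Agent.P370Z.GRID.Form

/-!
# P370, block GRID: geometry of the wires
-/

namespace Vale.Agent.P370Z.GRID

open Finset

variable {nE nD : ℕ}

theorem mem_lines {J : ℕ} : J ∈ lines nE nD ↔ nE ≤ J ∧ J < 2 * nE + nD := mem_Ico

theorem mem_wire {J i : ℕ} : i ∈ wire nE nD J ↔ wlo nE nD J ≤ i ∧ i ≤ whi nE nD J := mem_Icc

theorem hAct_odd {i J : ℕ} : hAct nE nD i (2 * J + 1) ↔ J ∈ lines nE nD ∧ i ∈ wire nE nD J := by
  have h : (2 * J + 1) / 2 = J := by omega
  rw [mem_lines, mem_wire, hAct, h]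
  omega

theorem not_hAct_even {i j : ℕ} : ¬ hAct nE nD i (2 * j) := fun h => by have := h.1; omega

theorem hAct_iff {i j : ℕ} : hAct nE nD i j ↔ j % 2 = 1 ∧
    ((nE ≤ j / 2 ∧ j / 2 < nE + nD ∧ 2 * nE ≤ i ∧ i ≤ 2 * (2 * nE + nD)) ∨
     (nE + nD ≤ j / 2 ∧ j / 2 < 2 * nE + nD ∧ 2 * (j / 2 - nE - nD) ≤ i ∧ i ≤ 2 * (j / 2))) := by
  unfold hAct wlo whi
  split_ifs with h <;> unfold isMain at h <;> omega

theorem whi_eq {J : ℕ} (h : J ∈ lines nE nD) : whi nE nD J + 1 = wlo nE nD J + nW nE nD := by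
  rw [mem_lines] at h
  unfold wlo whi nW
  split_ifs with h' <;> unfold isMain at h' <;> omega

theorem wlo_le {J : ℕ} (h : J ∈ lines nE nD) : wlo nE nD J ≤ whi nE nD J := by
  have := whi_eq h
  unfold nW at this
  omega

theorem card_wire {J : ℕ} (h : J ∈ lines nE nD) : (wire nE nD J).card = nW nE nD := by
  have := whi_eq h
  rw [wire, Nat.card_Icc]; omega

theorem hAct_lt {i j : ℕ} (h : hAct nE nD i j) : i + 1 < 2 * nI nE nD ∧ j + 1 < 2 * nI nE nD := by
  rw [hAct_iff] at h; unfold nI; omega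

theorem cross_iff {I J : ℕ} :
    hAct nE nD (2 * I + 1) (2 * J + 1) ∧ hAct nE nD (2 * J + 1) (2 * I + 1) ↔
      J ∈ lines nE nD ∧ I ∈ lines nE nD ∧ (isMain nE nD J ∨ isMain nE nD I) := by
  rw [hAct_iff, hAct_iff, mem_lines, mem_lines]
  unfold isMain
  omega

theorem cross_mem {I J : ℕ} (hJ : J ∈ lines nE nD) (hI : I ∈ lines nE nD)
    (h : isMain nE nD J ∨ isMain nE nD I) : 2 * I + 1 ∈ wire nE nD J :=
  (hAct_odd.1 (cross_iff.2 ⟨hJ, hI, h⟩).1).2

theorem sum_lines (F : ℕ → ℝ) :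
    ∑ J ∈ range (nI nE nD), (if J ∈ lines nE nD then F J else 0) = ∑ J ∈ lines nE nD, F J := by
  rw [← sum_filter]
  refine sum_congr ?_ fun _ _ => rfl
  ext J
  simp only [mem_filter, mem_range, mem_lines, nI]
  omega

theorem sum_hAct (F : ℕ → ℕ → ℝ) :
    ∑ i ∈ range (2 * nI nE nD), ∑ j ∈ range (2 * nI nE nD), (if hAct nE nD i j then F i j else 0) =
      ∑ J ∈ lines nE nD, ∑ i ∈ wire nE nD J, F i (2 * J + 1) := by
  rw [sum_comm, sum_pair, ← sum_lines]
  refine sum_congr rfl fun J _ => ?_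
  simp only [not_hAct_even, if_false, sum_const_zero, zero_add, hAct_odd]
  split_ifs with h
  · simp only [h, true_and]
    rw [← sum_filter]
    refine sum_congr ?_ fun _ _ => rfl
    ext i
    simp only [mem_filter, mem_range, and_iff_right_iff_imp]
    intro hi
    have := (hAct_lt (hAct_odd.2 ⟨h, hi⟩)).1
    omega
  · simp [h]

theorem sum_cross (F : ℕ → ℕ → ℝ) :
    ∑ i ∈ range (2 * nI nE nD), ∑ j ∈ range (2 * nI nE nD),
      (if hAct nE nD i j ∧ hAct nE nD j i then F i j else 0) =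
      ∑ J ∈ lines nE nD, ∑ I ∈ lines nE nD,
        if isMain nE nD J ∨ isMain nE nD I then F (2 * I + 1) (2 * J + 1) else 0 := by
  rw [sum_comm, sum_pair, ← sum_lines]
  refine sum_congr rfl fun J _ => ?_
  simp only [not_hAct_even, false_and, if_false, sum_const_zero, zero_add]
  rw [sum_pair]
  simp only [not_hAct_even, and_false, if_false, zero_add, cross_iff]
  split_ifs with h
  · rw [← sum_lines]
    refine sum_congr rfl fun I _ => ?_
    by_cases hI : I ∈ lines nE nD <;> simp [h, hI]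
  · simp [h]

/-- the lines: main lines and leads -/
theorem sum_lines_split (F : ℕ → ℝ) : ∑ J ∈ lines nE nD, F J =
    ∑ d ∈ range nD, F (nE + d) + ∑ e ∈ range nE, F (nE + nD + e) := by
  rw [lines, ← sum_Ico_consecutive F (m := nE) (n := nE + nD) (k := 2 * nE + nD) (by omega)
    (by omega), sum_Ico_eq_sum_range, sum_Ico_eq_sum_range, show nE + nD - nE = nD by omega,
    show 2 * nE + nD - (nE + nD) = nE by omega]

theorem isMain_main {d : ℕ} (h : d < nD) : isMain nE nD (nE + d) := ⟨by omega, by omega⟩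

theorem not_isMain_lead (e : ℕ) : ¬ isMain nE nD (nE + nD + e) := fun h => by
  have := h.2; omega

theorem path_deg {lo hi : ℕ} (h : lo ≤ hi) (p : ℕ → ℝ) :
    ∑ i ∈ Icc lo hi, (((if i = lo then 0 else 1) + (if i = hi then 0 else 1) : ℕ) : ℝ) * p i =
      ∑ i ∈ Ico lo hi, (p i + p (i + 1)) := by
  induction hi, h using Nat.le_induction with
  | base => simp
  | succ hi h ih =>
    rw [sum_Ico_succ_top h, ← ih, ← insert_Icc_right_eq_Icc_add_one (by omega),
      sum_insert (by simp), if_neg (by omega), if_pos rfl]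
    have h1 : ∀ i ∈ Icc lo hi,
        (((if i = lo then 0 else 1) + (if i = hi + 1 then 0 else 1) : ℕ) : ℝ) * p i =
        (((if i = lo then 0 else 1) + (if i = hi then 0 else 1) : ℕ) : ℝ) * p i +
          if i = hi then p i else 0 := by
      intro i hi'
      rw [mem_Icc] at hi'
      rw [if_neg (show ¬ i = hi + 1 by omega)]
      split_ifs <;> push_cast <;> ring
    rw [sum_congr rfl h1, sum_add_distrib, sum_ite_eq', if_pos (mem_Icc.2 ⟨h, le_rfl⟩)]
    push_cast; ring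

theorem abs_le_one_of_tight {U : ℕ → ℕ → ℝ} (hU : Tight fun (e : Fin nE) (d : Fin nD) => U e d)
    {e d : ℕ} (he : e < nE) (hd : d < nD) : |U e d| ≤ 1 := by
  have h1 := hU ⟨d, hd⟩ ⟨d, hd⟩
  simp only [idm, if_true] at h1
  have h2 := single_le_sum (f := fun e : Fin nE => U e d * U e d)
    (fun _ _ => mul_self_nonneg _) (mem_univ ⟨e, he⟩)
  rw [h1] at h2
  exact abs_le_one_iff_mul_self_le_one.2 h2

theorem abs_cpl_le_one {U W : ℕ → ℕ → ℝ} (hU : Tight fun (e : Fin nE) (d : Fin nD) => U e d)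
    (hW : Tight fun (e : Fin nE) (d : Fin nD) => W e d) {J I : ℕ} (hJ : J ∈ lines nE nD)
    (hI : I ∈ lines nE nD) (h : isMain nE nD J ∨ isMain nE nD I) : |cpl nE nD U W J I| ≤ 1 := by
  rw [mem_lines] at hJ hI
  unfold cpl
  split_ifs with h1 h2 h3
  · rw [abs_of_nonneg] <;> norm_num
  · simp
  · have := abs_le_one_of_tight hU (e := J - nE - nD) (d := I - nE)
      (by unfold isMain at h1 h3; omega) (by have := h3.2; omega)
    rw [abs_mul, abs_of_nonneg (by norm_num : (0 : ℝ) ≤ 3 / 5)]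
    linarith
  · have := abs_le_one_of_tight hW (e := I - nE - nD) (d := J - nE)
      (by unfold isMain at h3; omega) (by have := (h.resolve_right h3).2; omega)
    rw [abs_mul, abs_of_nonneg (by norm_num : (0 : ℝ) ≤ 3 / 5)]
    linarith

end Vale.Agent.P370Z.GRID
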