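import Vale.Agent.P370Z.Basic

/-!
# P370, grid of wires: Poincare inequality on a path, coupled wires, zero modes
-/

namespace Vale.Agent.P370Z.GRID

open Finset

noncomputable section

/-- the Dirichlet form of the path with `n` points -/
def dir (n : ℕ) (ξ : ℕ → ℝ) : ℝ := ∑ r ∈ range (n - 1), (ξ r - ξ (r + 1)) ^ 2

lemma dir_nonneg (n : ℕ) (ξ : ℕ → ℝ) : 0 ≤ dir n ξ := sum_nonneg fun _ _ => sq_nonneg _

lemma sub_zero_sq_le {n r : ℕ} (hr : r < n) (ξ : ℕ → ℝ) : (ξ r - ξ 0) ^ 2 ≤ n * dir n ξ := by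
  have h1 : ξ r - ξ 0 = ∑ q ∈ range r, (ξ (q + 1) - ξ q) := (sum_range_sub ξ r).symm
  have h2 : (∑ q ∈ range r, (ξ (q + 1) - ξ q)) ^ 2 ≤ r * ∑ q ∈ range r, (ξ (q + 1) - ξ q) ^ 2 := by
    simpa using sq_sum_le_card_mul_sum_sq (s := range r) (f := fun q => ξ (q + 1) - ξ q)
  have h3 : ∑ q ∈ range r, (ξ (q + 1) - ξ q) ^ 2 ≤ dir n ξ := by
    unfold dir
    refine le_trans (le_of_eq (sum_congr rfl fun q _ => by ring)) (sum_le_sum_of_subset_of_nonneg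
      (range_subset_range.2 (by omega)) fun _ _ _ => sq_nonneg _)
  have h4 : (r : ℝ) ≤ n := by exact_mod_cast hr.le
  rw [h1]
  exact h2.trans (mul_le_mul h4 h3 (sum_nonneg fun _ _ => sq_nonneg _) (Nat.cast_nonneg n))

lemma sum_sub_sq {n : ℕ} (ξ : ℕ → ℝ) (c : ℝ) :
    ∑ r ∈ range n, (ξ r - c) ^ 2 =
      ∑ r ∈ range n, ξ r ^ 2 - 2 * c * ∑ r ∈ range n, ξ r + n * c ^ 2 := by
  have : ∀ r, (ξ r - c) ^ 2 = ξ r ^ 2 - 2 * c * ξ r + c ^ 2 := fun r => by ring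
  simp only [this, sum_add_distrib, sum_sub_distrib, ← mul_sum, sum_const, card_range, nsmul_eq_mul]

/-- the mean value -/
def mean (n : ℕ) (ξ : ℕ → ℝ) : ℝ := (∑ r ∈ range n, ξ r) / n

lemma fluct_eq {n : ℕ} (hn : 1 ≤ n) (ξ : ℕ → ℝ) :
    ∑ r ∈ range n, (ξ r - mean n ξ) ^ 2 = ∑ r ∈ range n, ξ r ^ 2 - n * mean n ξ ^ 2 := by
  have h0 : (n : ℝ) ≠ 0 := by positivity
  have h1 : ∑ r ∈ range n, ξ r = n * mean n ξ := by unfold mean; field_simp
  rw [sum_sub_sq, h1]; ring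

lemma poincare {n : ℕ} (hn : 1 ≤ n) (ξ : ℕ → ℝ) :
    ∑ r ∈ range n, (ξ r - mean n ξ) ^ 2 ≤ (n : ℝ) ^ 2 * dir n ξ := by
  have h0 : (n : ℝ) ≠ 0 := by positivity
  have h1 : ∑ r ∈ range n, ξ r = n * mean n ξ := by unfold mean; field_simp
  have h2 : ∑ r ∈ range n, (ξ r - ξ 0) ^ 2 ≤ (n : ℝ) ^ 2 * dir n ξ := by
    calc ∑ r ∈ range n, (ξ r - ξ 0) ^ 2 ≤ ∑ _r ∈ range n, n * dir n ξ :=
          sum_le_sum fun r hr => sub_zero_sq_le (mem_range.1 hr) ξ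
      _ = _ := by rw [sum_const, card_range, nsmul_eq_mul]; ring
  refine le_trans ?_ h2
  rw [sum_sub_sq, sum_sub_sq, h1]
  have : 0 ≤ (n : ℝ) * (mean n ξ - ξ 0) ^ 2 := by positivity
  nlinarith

lemma mean_sq_le {n : ℕ} (hn : 1 ≤ n) (ξ : ℕ → ℝ) :
    n * mean n ξ ^ 2 ≤ ∑ r ∈ range n, ξ r ^ 2 := by
  have h1 := fluct_eq hn ξ
  have h2 : 0 ≤ ∑ r ∈ range n, (ξ r - mean n ξ) ^ 2 := sum_nonneg fun _ _ => sq_nonneg _
  linarith

/-- the path Laplacian written with degrees -/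
lemma dir_eq (m : ℕ) (ξ : ℕ → ℝ) (h : ξ (m + 1) = 0) :
    ∑ r ∈ range (m + 1), ((((if r = 0 then 0 else 1) + (if r = m then 0 else 1) : ℕ) : ℝ) *
      ξ r ^ 2 - 2 * (ξ r * ξ (r + 1))) = dir (m + 1) ξ := by
  have h1 : ∑ r ∈ range (m + 1), ((if r = 0 then 0 else 1 : ℕ) : ℝ) * ξ r ^ 2 =
      ∑ r ∈ range m, ξ (r + 1) ^ 2 := by
    rw [sum_range_succ']; simp
  have h2 : ∑ r ∈ range (m + 1), ((if r = m then 0 else 1 : ℕ) : ℝ) * ξ r ^ 2 =
      ∑ r ∈ range m, ξ r ^ 2 := by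
    rw [sum_range_succ]
    simp only [if_true, Nat.cast_zero, zero_mul, add_zero]
    exact sum_congr rfl fun r hr => by rw [if_neg (mem_range.1 hr).ne]; simp
  have h3 : ∑ r ∈ range (m + 1), 2 * (ξ r * ξ (r + 1)) = ∑ r ∈ range m, 2 * (ξ r * ξ (r + 1)) := by
    rw [sum_range_succ, h]; simp
  simp only [Nat.cast_add, add_mul, sum_sub_distrib, sum_add_distrib, h1, h2, h3]
  unfold dir
  rw [Nat.add_sub_cancel, ← sum_add_distrib, ← sum_sub_distrib]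
  exact sum_congr rfl fun r _ => by ring

lemma sum_inj_le {L : Type*} [Fintype L] {n : ℕ} (cr : L → Prop) [DecidablePred cr] (p : L → ℕ)
    (hp : ∀ I, cr I → p I < n) (hi : ∀ I I', cr I → cr I' → p I = p I' → I = I') {f : ℕ → ℝ}
    (hf : ∀ r, 0 ≤ f r) : ∑ I, (if cr I then f (p I) else 0) ≤ ∑ r ∈ range n, f r := by
  rw [← sum_filter, ← sum_image (s := univ.filter cr) (g := p) (f := f)
    (fun I hI I' hI' h => hi I I' (by simpa using hI) (by simpa using hI') h)]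
  refine sum_le_sum_of_subset_of_nonneg (fun r hr => ?_) fun r _ _ => hf r
  obtain ⟨I, hI, rfl⟩ := mem_image.1 hr
  exact mem_range.2 (hp I (mem_filter.1 hI).2)

lemma cross_pt {μ ν c k x y a b : ℝ} (hμ : 0 < μ) (hν : k ^ 2 ≤ μ * ν) (hc : |c| ≤ 1) :
    2 * k * (c * (x * y)) ≤ 2 * k * (c * (a * b)) + μ * ((x - a) ^ 2 + (y - b) ^ 2) +
      ν * (y ^ 2 + a ^ 2) := by
  have hc2 : c ^ 2 ≤ 1 := by rw [← sq_abs]; exact pow_le_one₀ (abs_nonneg c) hc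
  have key : ∀ u v : ℝ, 2 * k * (c * (u * v)) ≤ μ * u ^ 2 + ν * v ^ 2 := by
    intro u v
    have h1 : (k * c) ^ 2 * v ^ 2 ≤ μ * ν * v ^ 2 := by
      refine mul_le_mul_of_nonneg_right ?_ (sq_nonneg v)
      rw [mul_pow]
      exact (mul_le_of_le_one_right (sq_nonneg k) hc2).trans hν
    have h2 : μ * (2 * k * (c * (u * v))) ≤ μ * (μ * u ^ 2 + ν * v ^ 2) := by
      nlinarith [sq_nonneg (μ * u - k * c * v)]
    exact le_of_mul_le_mul_left h2 hμ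
  have h1 := key (x - a) y
  have h2 := key (y - b) a
  nlinarith

/-- wires coupled at crossings: reduction to the mean values -/
lemma wires {L : Type*} [Fintype L] {n : ℕ} (hn : 1 ≤ n) (x y : L → ℕ → ℝ) (p q : L → L → ℕ)
    (cr : L → L → Prop) [∀ J I, Decidable (cr J I)] (cp : L → L → ℝ)
    (hp : ∀ J I, cr J I → p J I < n) (hq : ∀ J I, cr J I → q J I < n)
    (hpi : ∀ J I I', cr J I → cr J I' → p J I = p J I' → I = I')
    (hqi : ∀ I J J', cr J I → cr J' I → q J I = q J' I → J = J')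
    (hcp : ∀ J I, cr J I → |cp J I| ≤ 1) {t β : ℝ} (ht : 0 < t) :
    2 * (β * n) * ∑ J, ∑ I, (if cr J I then cp J I * (x J (p J I) * y I (q J I)) else 0) ≤
      2 * (β * n) * ∑ J, ∑ I, (if cr J I then cp J I * (mean n (x J) * mean n (y I)) else 0) +
      t / 2 * (∑ J, dir n (x J) + ∑ I, dir n (y I)) +
      2 * n ^ 4 * β ^ 2 / t *
        (∑ J, ∑ r ∈ range n, x J r ^ 2 + ∑ I, ∑ r ∈ range n, y I r ^ 2) := by
  have hn0 : (0 : ℝ) < n := by exact_mod_cast hn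
  set μ : ℝ := t / (2 * n ^ 2) with hμ
  set ν : ℝ := 2 * n ^ 4 * β ^ 2 / t with hν
  have hμ0 : 0 < μ := by positivity
  have hν0 : 0 ≤ ν := by positivity
  have hμν : (β * n) ^ 2 ≤ μ * ν := by
    rw [hμ, hν]; apply le_of_eq; field_simp
  have h1 : ∀ J I, 2 * (β * n) * (if cr J I then cp J I * (x J (p J I) * y I (q J I)) else 0) ≤
      2 * (β * n) * (if cr J I then cp J I * (mean n (x J) * mean n (y I)) else 0) +
      μ * ((if cr J I then (x J (p J I) - mean n (x J)) ^ 2 else 0) +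
        (if cr J I then (y I (q J I) - mean n (y I)) ^ 2 else 0)) +
      ν * ((if cr J I then y I (q J I) ^ 2 else 0) + (if cr J I then mean n (x J) ^ 2 else 0)) := by
    intro J I
    by_cases h : cr J I
    · simp only [if_pos h]
      exact cross_pt hμ0 hμν (hcp J I h)
    · simp [h]
  have a1 : ∑ J, ∑ I, (if cr J I then (x J (p J I) - mean n (x J)) ^ 2 else 0) ≤
      (n : ℝ) ^ 2 * ∑ J, dir n (x J) := by
    rw [mul_sum]
    exact sum_le_sum fun J _ => (sum_inj_le (cr J) (p J) (hp J) (hpi J)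
      (f := fun r => (x J r - mean n (x J)) ^ 2) fun _ => sq_nonneg _).trans (poincare hn _)
  have a2 : ∑ J, ∑ I, (if cr J I then (y I (q J I) - mean n (y I)) ^ 2 else 0) ≤
      (n : ℝ) ^ 2 * ∑ I, dir n (y I) := by
    rw [mul_sum, sum_comm]
    exact sum_le_sum fun I _ => (sum_inj_le (fun J => cr J I) (fun J => q J I) (fun J => hq J I)
      (hqi I) (f := fun r => (y I r - mean n (y I)) ^ 2) fun _ => sq_nonneg _).trans
      (poincare hn _)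
  have a3 : ∑ J, ∑ I, (if cr J I then y I (q J I) ^ 2 else 0) ≤
      ∑ I, ∑ r ∈ range n, y I r ^ 2 := by
    rw [sum_comm]
    exact sum_le_sum fun I _ => sum_inj_le (fun J => cr J I) (fun J => q J I) (fun J => hq J I)
      (hqi I) (f := fun r => y I r ^ 2) fun _ => sq_nonneg _
  have a4 : ∑ J, ∑ I, (if cr J I then mean n (x J) ^ 2 else 0) ≤
      ∑ J, ∑ r ∈ range n, x J r ^ 2 := by
    refine sum_le_sum fun J _ => (sum_inj_le (cr J) (p J) (hp J) (hpi J)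
      (f := fun _ => mean n (x J) ^ 2) fun _ => sq_nonneg _).trans ?_
    rw [sum_const, card_range, nsmul_eq_mul]
    exact mean_sq_le hn _
  have h2 := sum_le_sum fun J (_ : J ∈ univ) => sum_le_sum fun I (_ : I ∈ univ) => h1 J I
  simp only [sum_add_distrib, ← mul_sum] at h2
  have h3 : μ * ((n : ℝ) ^ 2 * ∑ J, dir n (x J) + (n : ℝ) ^ 2 * ∑ I, dir n (y I)) =
      t / 2 * (∑ J, dir n (x J) + ∑ I, dir n (y I)) := by
    rw [hμ]; field_simp
  have h4 := mul_le_mul_of_nonneg_left (add_le_add a1 a2) hμ0.le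
  have h5 := mul_le_mul_of_nonneg_left (add_le_add a3 a4) hν0
  linarith

lemma tight_sq {E D : Type} [Fintype E] [Fintype D] [DecidableEq D] {U : E → D → ℝ}
    (hU : Tight U) (v : D → ℝ) : ∑ e, (∑ d, U e d * v d) ^ 2 = ∑ d, v d ^ 2 := by
  have h1 : ∀ e, (∑ d, U e d * v d) ^ 2 = ∑ d, ∑ d', v d * v d' * (U e d * U e d') := by
    intro e
    rw [sq, sum_mul_sum]
    exact sum_congr rfl fun d _ => sum_congr rfl fun d' _ => by ring
  simp only [h1]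
  rw [sum_comm]
  refine sum_congr rfl fun d _ => ?_
  rw [sum_comm]
  simp only [← mul_sum, hU d, idm, mul_ite, mul_one, mul_zero, sum_ite_eq, mem_univ, if_true, sq]

lemma tight_abs {E D : Type} [Fintype E] [Fintype D] [DecidableEq D] {U : E → D → ℝ}
    (hU : Tight U) (e : E) (d : D) : |U e d| ≤ 1 := by
  have h1 : U e d * U e d ≤ ∑ e, U e d * U e d :=
    single_le_sum (f := fun e => U e d * U e d) (fun _ _ => mul_self_nonneg _) (mem_univ e)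
  rw [hU d d, idm, if_pos rfl] at h1
  exact abs_le_one_iff_mul_self_le_one.2 h1

lemma sq_dist {E D : Type} [Fintype E] [Fintype D] [DecidableEq D] {U : E → D → ℝ}
    (hU : Tight U) (y : E → ℝ) (v : D → ℝ) :
    ∑ e, (y e - 3 / 5 * ∑ d, U e d * v d) ^ 2 =
      ∑ e, y e ^ 2 - 6 / 5 * ∑ d, v d * ∑ e, U e d * y e + 9 / 25 * ∑ d, v d ^ 2 := by
  have h1 : ∀ e, (y e - 3 / 5 * ∑ d, U e d * v d) ^ 2 =
      y e ^ 2 - 6 / 5 * (∑ d, v d * (U e d * y e)) + 9 / 25 * (∑ d, U e d * v d) ^ 2 := by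
    intro e
    have : ∑ d, v d * (U e d * y e) = y e * ∑ d, U e d * v d := by
      rw [mul_sum]; exact sum_congr rfl fun d _ => by ring
    rw [this]; ring
  simp only [h1, sum_add_distrib, sum_sub_distrib, ← mul_sum, tight_sq hU]
  rw [sum_comm]
  simp only [← mul_sum]

lemma zero_nonneg {E D : Type} [Fintype E] [Fintype D] [DecidableEq D] {U W : E → D → ℝ}
    (hU : Tight U) (hW : Tight W) (a b : D → ℝ) (y z : E → ℝ) :
    0 ≤ ∑ d, a d ^ 2 + ∑ d, b d ^ 2 + ∑ e, y e ^ 2 + ∑ e, z e ^ 2 -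
      2 * (16 / 25 * ∑ d, a d * b d + 3 / 5 * ∑ d, b d * ∑ e, U e d * y e +
        3 / 5 * ∑ d, a d * ∑ e, W e d * z e) := by
  have h2 := sq_dist hU y b
  have h3 := sq_dist hW z a
  have h5 : ∑ d, (a d - b d) ^ 2 = ∑ d, a d ^ 2 + ∑ d, b d ^ 2 - 2 * ∑ d, a d * b d := by
    rw [mul_sum, ← sum_add_distrib, ← sum_sub_distrib]
    exact sum_congr rfl fun d _ => by ring
  have p1 : 0 ≤ ∑ e, (y e - 3 / 5 * ∑ d, U e d * b d) ^ 2 := sum_nonneg fun _ _ => sq_nonneg _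
  have p2 : 0 ≤ ∑ e, (z e - 3 / 5 * ∑ d, W e d * a d) ^ 2 := sum_nonneg fun _ _ => sq_nonneg _
  have p3 : 0 ≤ ∑ d, (a d - b d) ^ 2 := sum_nonneg fun _ _ => sq_nonneg _
  linarith

/-- the gap above the zero modes -/
lemma zero_mode {E D : Type} [Fintype E] [Fintype D] [DecidableEq D] {U W : E → D → ℝ}
    (hU : Tight U) (hW : Tight W) (a b : D → ℝ) (y z : E → ℝ) :
    ∑ d, a d ^ 2 + ∑ d, b d ^ 2 + ∑ e, y e ^ 2 + ∑ e, z e ^ 2 -
      25 / 68 * ∑ d, (a d + b d + 3 / 5 * ∑ e, U e d * y e + 3 / 5 * ∑ e, W e d * z e) ^ 2 ≤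
    3 * (∑ d, a d ^ 2 + ∑ d, b d ^ 2 + ∑ e, y e ^ 2 + ∑ e, z e ^ 2 -
      2 * (16 / 25 * ∑ d, a d * b d + 3 / 5 * ∑ d, b d * ∑ e, U e d * y e +
        3 / 5 * ∑ d, a d * ∑ e, W e d * z e)) := by
  have h1 := sq_dist hU y a
  have h2 := sq_dist hU y b
  have h3 := sq_dist hW z a
  have h4 : ∑ e, (y e - 3 / 5 * ∑ d, U e d * a d) ^ 2 ≤
      2 * ∑ e, (y e - 3 / 5 * ∑ d, U e d * b d) ^ 2 + 18 / 25 * ∑ d, (a d - b d) ^ 2 := by
    rw [← tight_sq hU fun d => a d - b d, mul_sum, mul_sum, ← sum_add_distrib]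
    refine sum_le_sum fun e _ => ?_
    have : ∑ d, U e d * (a d - b d) = ∑ d, U e d * a d - ∑ d, U e d * b d := by
      rw [← sum_sub_distrib]; exact sum_congr rfl fun d _ => by ring
    rw [this]
    nlinarith [sq_nonneg (y e - 6 / 5 * ∑ d, U e d * b d + 3 / 5 * ∑ d, U e d * a d)]
  have h5 : ∑ d, (a d - b d) ^ 2 = ∑ d, a d ^ 2 + ∑ d, b d ^ 2 - 2 * ∑ d, a d * b d := by
    rw [mul_sum, ← sum_add_distrib, ← sum_sub_distrib]
    exact sum_congr rfl fun d _ => by ring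
  have h6 : 2 * (∑ d, a d ^ 2 + ∑ d, a d * b d + 3 / 5 * ∑ d, a d * ∑ e, U e d * y e +
      3 / 5 * ∑ d, a d * ∑ e, W e d * z e) - 68 / 25 * ∑ d, a d ^ 2 ≤
      25 / 68 * ∑ d, (a d + b d + 3 / 5 * ∑ e, U e d * y e + 3 / 5 * ∑ e, W e d * z e) ^ 2 := by
    simp only [mul_sum (s := (univ : Finset D)), ← sum_add_distrib, ← sum_sub_distrib]
    refine sum_le_sum fun d _ => ?_
    nlinarith [sq_nonneg (a d + b d + 3 / 5 * ∑ e, U e d * y e + 3 / 5 * ∑ e, W e d * z e -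
      68 / 25 * a d)]
  have p1 : 0 ≤ ∑ e, (y e - 3 / 5 * ∑ d, U e d * b d) ^ 2 := sum_nonneg fun _ _ => sq_nonneg _
  have p2 : 0 ≤ ∑ e, (z e - 3 / 5 * ∑ d, W e d * a d) ^ 2 := sum_nonneg fun _ _ => sq_nonneg _
  have p3 : 0 ≤ ∑ d, (a d - b d) ^ 2 := sum_nonneg fun _ _ => sq_nonneg _
  linarith

end

end Vale.Agent.P370Z.GRID
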