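import Vale.Agent.P370Z.GRID.Defs
import Vale.Agent.P370Z.GRID.Low1

/-!
# P370, grid of wires: the lower bound for the form on the low energy vectors
-/

namespace Vale.Agent.P370Z.GRID.Low

open Finset

noncomputable section

variable {nE nD : ℕ}

/-- enumeration of the lines -/
def ln (nE nD : ℕ) : Fin nD ⊕ Fin nE → ℕ
  | .inl d => nE + d
  | .inr e => nE + nD + e

lemma ln_mem (l : Fin nD ⊕ Fin nE) : nE ≤ ln nE nD l ∧ ln nE nD l < 2 * nE + nD := by
  rcases l with d | e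
  · have := d.2; simp only [ln]; omega
  · have := e.2; simp only [ln]; omega

lemma ln_inj {l l' : Fin nD ⊕ Fin nE} (h : ln nE nD l = ln nE nD l') : l = l' := by
  rcases l with d | e <;> rcases l' with d' | e' <;> simp only [ln] at h
  · exact congrArg _ (Fin.ext (by omega))
  · have := d.2; omega
  · have := d'.2; omega
  · exact congrArg _ (Fin.ext (by omega))

lemma sum_lines (F : ℕ → ℝ) : ∑ J ∈ lines nE nD, F J = ∑ l, F (ln nE nD l) := by
  rw [Fintype.sum_sum_type, lines, sum_Ico_eq_sum_range, show 2 * nE + nD - nE = nD + nE by omega,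
    sum_range_add, ← Fin.sum_univ_eq_sum_range (fun d => F (nE + d)),
    ← Fin.sum_univ_eq_sum_range (fun e => F (nE + (nD + e)))]
  simp only [ln, add_assoc]

lemma w_spec (nE nD J : ℕ) :
    (nE ≤ J ∧ J < nE + nD ∧ wlo nE nD J = 2 * nE ∧ whi nE nD J = 2 * (2 * nE + nD)) ∨
    (¬ (nE ≤ J ∧ J < nE + nD) ∧ wlo nE nD J = 2 * (J - nE - nD) ∧ whi nE nD J = 2 * J) := by
  by_cases h : isMain nE nD J
  · exact Or.inl ⟨h.1, h.2, if_pos h, if_pos h⟩
  · exact Or.inr ⟨h, if_neg h, if_neg h⟩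

lemma whi_eq {J : ℕ} (h : nE ≤ J) : whi nE nD J + 1 = wlo nE nD J + nW nE nD := by
  have := w_spec nE nD J
  unfold nW
  omega

lemma sum_wire {J : ℕ} (h : nE ≤ J) (F : ℕ → ℝ) :
    ∑ i ∈ wire nE nD J, F i = ∑ r ∈ range (nW nE nD), F (wlo nE nD J + r) := by
  have := whi_eq (nD := nD) h
  rw [wire, ← Finset.Ico_add_one_right_eq_Icc, sum_Ico_eq_sum_range,
    show whi nE nD J + 1 - wlo nE nD J = nW nE nD by omega]

lemma sum_bond {J : ℕ} (h : nE ≤ J) (F : ℕ → ℝ) :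
    ∑ i ∈ Ico (wlo nE nD J) (whi nE nD J), F i =
      ∑ r ∈ range (nW nE nD - 1), F (wlo nE nD J + r) := by
  have := whi_eq (nD := nD) h
  rw [sum_Ico_eq_sum_range, show whi nE nD J - wlo nE nD J = nW nE nD - 1 by omega]

/-- amplitudes counted from the beginning of the wire -/
def sh (nE nD : ℕ) (u : ℕ → ℕ → ℝ) (l : Fin nD ⊕ Fin nE) (r : ℕ) : ℝ :=
  u (ln nE nD l) (wlo nE nD (ln nE nD l) + r)

/-- the position on the wire `J` of the crossing with the wire `I` -/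
def ps (nE nD : ℕ) (J I : Fin nD ⊕ Fin nE) : ℕ := 2 * ln nE nD I + 1 - wlo nE nD (ln nE nD J)

/-- the wires cross -/
def cr (nE nD : ℕ) (J I : Fin nD ⊕ Fin nE) : Prop :=
  isMain nE nD (ln nE nD J) ∨ isMain nE nD (ln nE nD I)

instance (J I : Fin nD ⊕ Fin nE) : Decidable (cr nE nD J I) := by unfold cr; infer_instance

lemma ps_spec {J I : Fin nD ⊕ Fin nE} (h : cr nE nD J I) :
    wlo nE nD (ln nE nD J) + ps nE nD J I = 2 * ln nE nD I + 1 ∧ ps nE nD J I < nW nE nD := by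
  have h1 := ln_mem J
  have h2 := ln_mem I
  have h3 := w_spec nE nD (ln nE nD J)
  unfold cr isMain at h
  unfold ps nW
  omega

lemma wip_self (u : ℕ → ℕ → ℝ) :
    wip nE nD u u = ∑ J, ∑ r ∈ range (nW nE nD), sh nE nD u J r ^ 2 := by
  unfold wip
  rw [sum_lines]
  refine sum_congr rfl fun J _ => ?_
  rw [sum_wire (ln_mem J).1]
  simp only [sh, sq]

lemma wlap_self (u : ℕ → ℕ → ℝ) : wlap nE nD u u = ∑ J, dir (nW nE nD) (sh nE nD u J) := by
  unfold wlap
  rw [sum_lines]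
  refine sum_congr rfl fun J _ => ?_
  rw [sum_bond (ln_mem J).1]
  simp only [dir, sh, sq, add_assoc]

lemma wcr_eq (U W u v : ℕ → ℕ → ℝ) : wcr nE nD U W u v = ∑ J, ∑ I, if cr nE nD J I then
    cpl nE nD U W (ln nE nD J) (ln nE nD I) *
      (sh nE nD u J (ps nE nD J I) * sh nE nD v I (ps nE nD I J)) else 0 := by
  unfold wcr
  rw [sum_lines]
  refine sum_congr rfl fun J _ => ?_
  rw [sum_lines]
  refine sum_congr rfl fun I _ => ?_
  by_cases h : cr nE nD J I
  · rw [if_pos h, sh, sh, (ps_spec h).1, (ps_spec (Or.symm h)).1]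
    exact if_pos h
  · rw [if_neg h]
    exact if_neg h

lemma main_inl (d : Fin nD) : isMain nE nD (ln nE nD (.inl d)) := by
  have := d.2; simp only [ln, isMain]; omega

lemma not_main_inr (e : Fin nE) : ¬ isMain nE nD (ln nE nD (.inr e)) := by
  simp only [ln, isMain]; omega

lemma cpl_ll (U W : ℕ → ℕ → ℝ) (d d' : Fin nD) :
    cpl nE nD U W (ln nE nD (.inl d)) (ln nE nD (.inl d')) = if d = d' then 16 / 25 else 0 := by
  unfold cpl
  rw [if_pos ⟨main_inl d, main_inl d'⟩]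
  simp only [ln, Nat.add_left_cancel_iff, Fin.val_inj]

lemma cpl_rl (U W : ℕ → ℕ → ℝ) (e : Fin nE) (d : Fin nD) :
    cpl nE nD U W (ln nE nD (.inr e)) (ln nE nD (.inl d)) = 3 / 5 * U e d := by
  unfold cpl
  rw [if_neg fun h => not_main_inr e h.1, if_pos (main_inl d)]
  simp only [ln]
  rw [show nE + nD + e - nE - nD = e by omega, show nE + d - nE = d by omega]

lemma cpl_lr (U W : ℕ → ℕ → ℝ) (d : Fin nD) (e : Fin nE) :
    cpl nE nD U W (ln nE nD (.inl d)) (ln nE nD (.inr e)) = 3 / 5 * W e d := by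
  unfold cpl
  rw [if_neg fun h => not_main_inr e h.2, if_neg (not_main_inr e)]
  simp only [ln]
  rw [show nE + nD + e - nE - nD = e by omega, show nE + d - nE = d by omega]

lemma abs_cpl {U W : ℕ → ℕ → ℝ} (hU : Tight (fun (e : Fin nE) (d : Fin nD) => U e d))
    (hW : Tight (fun (e : Fin nE) (d : Fin nD) => W e d)) (J I : Fin nD ⊕ Fin nE)
    (h : cr nE nD J I) : |cpl nE nD U W (ln nE nD J) (ln nE nD I)| ≤ 1 := by
  rcases J with d | e <;> rcases I with d' | e'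
  · rw [cpl_ll]; split_ifs <;> norm_num [abs_of_pos]
  · have := tight_abs hW e' d
    rw [cpl_lr, abs_mul, abs_of_pos (by norm_num : (0 : ℝ) < 3 / 5)]; linarith [abs_nonneg (W e' d)]
  · have := tight_abs hU e d'
    rw [cpl_rl, abs_mul, abs_of_pos (by norm_num : (0 : ℝ) < 3 / 5)]; linarith [abs_nonneg (U e d')]
  · exact absurd h (not_or.2 ⟨not_main_inr e, not_main_inr e'⟩)

lemma cross_sum (U W : ℕ → ℕ → ℝ) (X Y : Fin nD ⊕ Fin nE → ℝ) :
    ∑ J, ∑ I, (if cr nE nD J I then cpl nE nD U W (ln nE nD J) (ln nE nD I) * (X J * Y I)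
      else 0) = 16 / 25 * ∑ d, X (.inl d) * Y (.inl d) +
      3 / 5 * ∑ d : Fin nD, Y (.inl d) * ∑ e : Fin nE, U e d * X (.inr e) +
      3 / 5 * ∑ d : Fin nD, X (.inl d) * ∑ e : Fin nE, W e d * Y (.inr e) := by
  have c1 : ∀ (d : Fin nD) (I : Fin nD ⊕ Fin nE), cr nE nD (.inl d) I := fun d _ =>
    Or.inl (main_inl d)
  have c2 : ∀ (e : Fin nE) (d : Fin nD), cr nE nD (.inr e) (.inl d) := fun _ d =>
    Or.inr (main_inl d)
  have c3 : ∀ e e' : Fin nE, ¬ cr nE nD (.inr e) (.inr e') := fun e e' =>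
    not_or.2 ⟨not_main_inr e, not_main_inr e'⟩
  simp only [Fintype.sum_sum_type, c1, c2, c3, if_true, if_false, sum_const_zero, add_zero,
    cpl_ll, cpl_lr, cpl_rl, ite_mul, zero_mul, sum_ite_eq, mem_univ, sum_add_distrib]
  have e1 : ∑ e : Fin nE, ∑ d : Fin nD, 3 / 5 * U e d * (X (.inr e) * Y (.inl d)) =
      3 / 5 * ∑ d : Fin nD, Y (.inl d) * ∑ e : Fin nE, U e d * X (.inr e) := by
    rw [sum_comm, mul_sum]
    refine sum_congr rfl fun d _ => ?_
    rw [mul_sum, mul_sum]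
    exact sum_congr rfl fun e _ => by ring
  have e2 : ∑ d : Fin nD, ∑ e : Fin nE, 3 / 5 * W e d * (X (.inl d) * Y (.inr e)) =
      3 / 5 * ∑ d : Fin nD, X (.inl d) * ∑ e : Fin nE, W e d * Y (.inr e) := by
    rw [mul_sum]
    refine sum_congr rfl fun d _ => ?_
    rw [mul_sum, mul_sum]
    exact sum_congr rfl fun e _ => by ring
  rw [e1, e2, ← mul_sum]

lemma nW_pos : 1 ≤ nW nE nD := by unfold nW; omega

/-- the amplitude of the zero mode of a wire -/
def zm (nE nD : ℕ) (u : ℕ → ℕ → ℝ) (l : Fin nD ⊕ Fin nE) : ℝ :=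
  √(nW nE nD) * mean (nW nE nD) (sh nE nD u l)

lemma zm_mul (u v : ℕ → ℕ → ℝ) (J I : Fin nD ⊕ Fin nE) : zm nE nD u J * zm nE nD v I =
    nW nE nD * (mean (nW nE nD) (sh nE nD u J) * mean (nW nE nD) (sh nE nD v I)) := by
  unfold zm
  have : √(nW nE nD : ℝ) * √(nW nE nD : ℝ) = nW nE nD := Real.mul_self_sqrt (Nat.cast_nonneg _)
  calc _ = (√(nW nE nD : ℝ) * √(nW nE nD : ℝ)) *
      (mean (nW nE nD) (sh nE nD u J) * mean (nW nE nD) (sh nE nD v I)) := by ring
    _ = _ := by rw [this]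

lemma wip_vam (U u : ℕ → ℕ → ℝ) (d : Fin nD) : wip nE nD (vam nE nD U d) u =
    5 / √68 * (zm nE nD u (.inl d) + 3 / 5 * ∑ e : Fin nE, U e d * zm nE nD u (.inr e)) := by
  have hn : (0 : ℝ) < nW nE nD := by exact_mod_cast nW_pos
  have hs : 0 < √(nW nE nD : ℝ) := Real.sqrt_pos.2 hn
  have h1 : ∀ J : Fin nD ⊕ Fin nE, ∑ i ∈ wire nE nD (ln nE nD J),
      vam nE nD U d (ln nE nD J) i * u (ln nE nD J) i =
        coef nE nD U d (ln nE nD J) * zm nE nD u J := by
    intro J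
    rw [sum_wire (ln_mem J).1]
    simp only [vam, ← mul_sum, zm, mean, sh]
    have : √(nW nE nD : ℝ) * √(nW nE nD : ℝ) = nW nE nD := Real.mul_self_sqrt hn.le
    field_simp
    rw [sq, this]
    ring
  have h2 : ∀ d' : Fin nD, coef nE nD U d (ln nE nD (.inl d')) =
      5 / √68 * if d' = d then 1 else 0 := by
    intro d'
    unfold coef
    rw [if_pos (main_inl d')]
    simp only [ln, Nat.add_left_cancel_iff, Fin.val_inj]
  have h3 : ∀ e : Fin nE, coef nE nD U d (ln nE nD (.inr e)) = 5 / √68 * (3 / 5 * U e d) := by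
    intro e
    unfold coef
    rw [if_neg (not_main_inr e)]
    simp only [ln]
    rw [show nE + nD + e - nE - nD = e by omega]
  unfold wip
  rw [sum_lines]
  simp only [h1, Fintype.sum_sum_type, h2, h3, mul_ite, mul_one, mul_zero, ite_mul, zero_mul,
    sum_ite_eq', mem_univ, if_true, mul_add, mul_sum]
  congr 1
  exact sum_congr rfl fun e _ => by ring

theorem blow_ge {U W : ℕ → ℕ → ℝ} (hU : Tight (fun (e : Fin nE) (d : Fin nD) => U e d))
    (hW : Tight (fun (e : Fin nE) (d : Fin nD) => W e d)) {t β : ℝ} (ht : 0 < t) (hβ : 0 < β)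
    (u v : ℕ → ℕ → ℝ) :
    β / 40 * (wip nE nD u u + wip nE nD v v - ∑ d ∈ range nD,
        (wip nE nD (vam nE nD U d) u + wip nE nD (vam nE nD W d) v) ^ 2) -
      2 * (nW nE nD : ℝ) ^ 4 * β ^ 2 / t * (wip nE nD u u + wip nE nD v v) ≤
      Blow nE nD U W t β u v u v := by
  have hw := wires (n := nW nE nD) nW_pos (sh nE nD u) (sh nE nD v) (ps nE nD)
    (fun J I => ps nE nD I J) (cr nE nD) (fun J I => cpl nE nD U W (ln nE nD J) (ln nE nD I))
    (fun J I h => (ps_spec h).2) (fun J I h => (ps_spec (Or.symm h)).2)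
    (fun J I I' h h' e => ln_inj (by have := (ps_spec h).1; have := (ps_spec h').1; omega))
    (fun I J J' h h' e => ln_inj (by
      have := (ps_spec (Or.symm h)).1; have := (ps_spec (Or.symm h')).1; omega))
    (abs_cpl hU hW) (β := β) ht
  rw [← wcr_eq, ← wlap_self, ← wlap_self, ← wip_self, ← wip_self] at hw
  have hc : (nW nE nD : ℝ) * ∑ J, ∑ I, (if cr nE nD J I then
      cpl nE nD U W (ln nE nD J) (ln nE nD I) *
        (mean (nW nE nD) (sh nE nD u J) * mean (nW nE nD) (sh nE nD v I)) else 0) =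
      ∑ J, ∑ I, (if cr nE nD J I then
        cpl nE nD U W (ln nE nD J) (ln nE nD I) * (zm nE nD u J * zm nE nD v I) else 0) := by
    simp only [mul_sum, zm_mul]
    refine sum_congr rfl fun J _ => sum_congr rfl fun I _ => ?_
    split_ifs <;> ring
  rw [cross_sum U W (zm nE nD u) (zm nE nD v)] at hc
  have hz := zero_mode hU hW (fun d => zm nE nD u (.inl d)) (fun d => zm nE nD v (.inl d))
    (fun e => zm nE nD u (.inr e)) (fun e => zm nE nD v (.inr e))
  have hm : ∀ x : ℕ → ℕ → ℝ, ∑ d : Fin nD, zm nE nD x (.inl d) ^ 2 +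
      ∑ e : Fin nE, zm nE nD x (.inr e) ^ 2 ≤ wip nE nD x x := by
    intro x
    rw [wip_self, ← Fintype.sum_sum_type (fun l => zm nE nD x l ^ 2)]
    refine sum_le_sum fun J _ => ?_
    rw [sq, zm_mul, ← sq]
    exact mean_sq_le nW_pos _
  have ho : ∑ d ∈ range nD, (wip nE nD (vam nE nD U d) u + wip nE nD (vam nE nD W d) v) ^ 2 =
      25 / 68 * ∑ d : Fin nD, (zm nE nD u (.inl d) + zm nE nD v (.inl d) +
        3 / 5 * ∑ e : Fin nE, U e d * zm nE nD u (.inr e) +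
        3 / 5 * ∑ e : Fin nE, W e d * zm nE nD v (.inr e)) ^ 2 := by
    rw [← Fin.sum_univ_eq_sum_range
      (fun d => (wip nE nD (vam nE nD U d) u + wip nE nD (vam nE nD W d) v) ^ 2), mul_sum]
    refine sum_congr rfl fun d _ => ?_
    have h68 : (5 / √68 : ℝ) ^ 2 = 25 / 68 := by
      rw [div_pow, Real.sq_sqrt (by norm_num)]; norm_num
    rw [wip_vam, wip_vam, ← mul_add, mul_pow, h68]
    ring
  have hu := hm u
  have hv := hm v
  have ho0 : 0 ≤ ∑ d : Fin nD, (zm nE nD u (.inl d) + zm nE nD v (.inl d) +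
        3 / 5 * ∑ e : Fin nE, U e d * zm nE nD u (.inr e) +
        3 / 5 * ∑ e : Fin nE, W e d * zm nE nD v (.inr e)) ^ 2 := sum_nonneg fun _ _ => sq_nonneg _
  rw [ho]
  unfold Blow
  generalize (∑ J, ∑ I, (if cr nE nD J I then cpl nE nD U W (ln nE nD J) (ln nE nD I) *
    (mean (nW nE nD) (sh nE nD u J) * mean (nW nE nD) (sh nE nD v I)) else 0)) = A at hw hc
  generalize (∑ d : Fin nD, (zm nE nD u (.inl d) + zm nE nD v (.inl d) +
        3 / 5 * ∑ e : Fin nE, U e d * zm nE nD u (.inr e) +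
        3 / 5 * ∑ e : Fin nE, W e d * zm nE nD v (.inr e)) ^ 2) = O at hz ho0 ⊢
  rw [← hc] at hz
  have h1 : wip nE nD u u + wip nE nD v v - 25 / 68 * O ≤
      40 * (wip nE nD u u + wip nE nD v v - 2 * (nW nE nD * A)) := by
    have h2 : 0 ≤ ∑ d : Fin nD, zm nE nD u (.inl d) ^ 2 + ∑ d : Fin nD, zm nE nD v (.inl d) ^ 2 +
        ∑ e : Fin nE, zm nE nD u (.inr e) ^ 2 + ∑ e : Fin nE, zm nE nD v (.inr e) ^ 2 -
        2 * (nW nE nD * A) := by
      rw [hc]
      exact zero_nonneg hU hW _ _ _ _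
    linarith
  have h3 := mul_le_mul_of_nonneg_left h1 hβ.le
  nlinarith

end

end Vale.Agent.P370Z.GRID.Low
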