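import Vale.Agent.P370Z.GRID.Low2

/-!
# P370, grid of wires: elimination of the high energy states
-/

namespace Vale.Agent.P370Z.GRID.Low

open Finset

noncomputable section

variable {nE nD : ℕ}

/-- the low energy part of a vector -/
def prj (nE nD : ℕ) (f : ℕ → ℕ → ℝ) : ℕ → ℕ → ℝ := emb nE nD (amp nE nD f) (amp nE nD (tr f))

lemma rm_val {i j a b : ℕ} (ha : a < 2) (hb : b < 2) : rm nE nD (2 * i + a) (2 * j + b) =
    if hAct nE nD i j then (-1) ^ ex nE nD i j * (if hAct nE nD j i then (-1) ^ a else 1) / 2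
    else 0 := by
  unfold rm
  rw [show (2 * i + a) / 2 = i by omega, show (2 * j + b) / 2 = j by omega]
  split_ifs
  · rw [pow_add, pow_add, pow_mul]; norm_num
  · rw [add_zero, mul_one]
  · rfl

lemma prj_val (f : ℕ → ℕ → ℝ) {i j a b : ℕ} (ha : a < 2) (hb : b < 2) :
    prj nE nD f (2 * i + a) (2 * j + b) =
      rm nE nD (2 * i + a) (2 * j + b) * cl (fun k l => rm nE nD k l * f k l) i j +
      rm nE nD (2 * j + b) (2 * i + a) * cl (fun k l => rm nE nD k l * f l k) j i := by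
  unfold prj emb amp tr
  rw [show (2 * i + a) / 2 = i by omega, show (2 * j + b) / 2 = j by omega]
  congr 1
  · by_cases h : hAct nE nD i j
    · rw [show 2 * ((2 * j + b) / 4) + 1 = j by have := h.1; omega]
    · rw [rm_val ha hb, if_neg h, zero_mul, zero_mul]
  · by_cases h : hAct nE nD j i
    · rw [show 2 * ((2 * i + a) / 4) + 1 = i by have := h.1; omega]
    · rw [rm_val hb ha, if_neg h, zero_mul, zero_mul]

lemma cl_rm (F : ℕ → ℕ → ℝ) (i j : ℕ) : cl (fun k l => rm nE nD k l * F k l) i j =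
    if hAct nE nD i j then (-1) ^ ex nE nD i j * (if hAct nE nD j i then
      F (2 * i) (2 * j) - F (2 * i + 1) (2 * j) + F (2 * i) (2 * j + 1) -
        F (2 * i + 1) (2 * j + 1) else cl F i j) / 2 else 0 := by
  have h00 := rm_val (nE := nE) (nD := nD) (i := i) (j := j) (a := 0) (b := 0) two_pos two_pos
  have h10 := rm_val (nE := nE) (nD := nD) (i := i) (j := j) (a := 1) (b := 0) one_lt_two two_pos
  have h01 := rm_val (nE := nE) (nD := nD) (i := i) (j := j) (a := 0) (b := 1) two_pos one_lt_two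
  have h11 := rm_val (nE := nE) (nD := nD) (i := i) (j := j) (a := 1) (b := 1) one_lt_two
    one_lt_two
  simp only [add_zero] at h00 h10 h01
  unfold cl
  simp only [h00, h10, h01, h11]
  split_ifs <;> ring

lemma prj_eq (f : ℕ → ℕ → ℝ) {i j a b : ℕ} (ha : a < 2) (hb : b < 2) :
    prj nE nD f (2 * i + a) (2 * j + b) =
      if hAct nE nD i j ∧ hAct nE nD j i then
        ((-1) ^ a * (f (2 * i) (2 * j) - f (2 * i + 1) (2 * j) + f (2 * i) (2 * j + 1) -
          f (2 * i + 1) (2 * j + 1)) +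
        (-1) ^ b * (f (2 * i) (2 * j) - f (2 * i) (2 * j + 1) + f (2 * i + 1) (2 * j) -
          f (2 * i + 1) (2 * j + 1))) / 4
      else if hAct nE nD i j ∨ hAct nE nD j i then cl f i j / 4 else 0 := by
  have e1 : ((-1 : ℝ) ^ ex nE nD i j) ^ 2 = 1 := by rw [← pow_mul, mul_comm, pow_mul]; norm_num
  have e2 : ((-1 : ℝ) ^ ex nE nD j i) ^ 2 = 1 := by rw [← pow_mul, mul_comm, pow_mul]; norm_num
  rw [prj_val f ha hb, rm_val ha hb, rm_val hb ha, cl_rm, cl_rm (fun k l => f l k)]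
  generalize ((-1 : ℝ) ^ ex nE nD i j) = x at e1 ⊢
  generalize ((-1 : ℝ) ^ ex nE nD j i) = y at e2 ⊢
  unfold cl
  by_cases h : hAct nE nD i j <;> by_cases h' : hAct nE nD j i <;>
    simp only [h, h', if_true, if_false, and_true, and_false, or_true, or_false]
  · linear_combination ((-1) ^ a * (f (2 * i) (2 * j) - f (2 * i + 1) (2 * j) +
      f (2 * i) (2 * j + 1) - f (2 * i + 1) (2 * j + 1)) / 4) * e1 +
      ((-1) ^ b * (f (2 * i) (2 * j) - f (2 * i) (2 * j + 1) + f (2 * i + 1) (2 * j) -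
          f (2 * i + 1) (2 * j + 1)) / 4) * e2
  · linear_combination ((f (2 * i) (2 * j) + f (2 * i + 1) (2 * j) +
      f (2 * i) (2 * j + 1) + f (2 * i + 1) (2 * j + 1)) / 4) * e1
  · linear_combination ((f (2 * i) (2 * j) + f (2 * i + 1) (2 * j) +
      f (2 * i) (2 * j + 1) + f (2 * i + 1) (2 * j + 1)) / 4) * e2
  · ring

lemma wPre_val (U W : ℕ → ℕ → ℝ) (T t β : ℝ) {i j a b : ℕ} (ha : a < 2) (hb : b < 2) :
    wPre nE nD U W T t β (2 * i + a) (2 * j + b) =
      if hAct nE nD i j ∧ hAct nE nD j i then t + β -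
        β * nW nE nD * cpl nE nD U W (j / 2) (i / 2) * (-1) ^ (i / 2 + j / 2) * (-1) ^ (a + b)
      else if hAct nE nD i j then 2 * T + (t / 2 * wdeg nE nD (j / 2) i + β)
      else if hAct nE nD j i then 2 * T + (t / 2 * wdeg nE nD (i / 2) j + β) else 4 * T := by
  unfold wPre
  rw [show (2 * i + a) / 2 = i by omega, show (2 * j + b) / 2 = j by omega,
    show (2 * i + a) / 4 = i / 2 by omega, show (2 * j + b) / 4 = j / 2 by omega,
    show i / 2 + j / 2 + (2 * i + a) + (2 * j + b) = (i / 2 + j / 2) + (a + b) + 2 * (i + j) by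
      ring, pow_add, pow_add, pow_mul]
  split_ifs <;> ring

lemma cluster (U W : ℕ → ℕ → ℝ) {T t β : ℝ} (hT : 0 ≤ T) (ht : 0 ≤ t) (hβ : 0 ≤ β)
    (f : ℕ → ℕ → ℝ) (i j : ℕ) (h0 : hAct nE nD i j → hAct nE nD j i → cl f i j = 0) :
    cl (fun k l => prj nE nD f k l * f k l) i j =
      cl (fun k l => prj nE nD f k l * prj nE nD f k l) i j ∧
    loc (wPre nE nD U W T t β) T (prj nE nD f) (prj nE nD f) i j +
      2 * T * cl (fun k l => (f k l - prj nE nD f k l) * (f k l - prj nE nD f k l)) i j ≤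
      loc (wPre nE nD U W T t β) T f f i j := by
  have g00 := prj_eq (nE := nE) (nD := nD) f (i := i) (j := j) (a := 0) (b := 0) two_pos two_pos
  have g10 := prj_eq (nE := nE) (nD := nD) f (i := i) (j := j) (a := 1) (b := 0) one_lt_two two_pos
  have g01 := prj_eq (nE := nE) (nD := nD) f (i := i) (j := j) (a := 0) (b := 1) two_pos one_lt_two
  have g11 := prj_eq (nE := nE) (nD := nD) f (i := i) (j := j) (a := 1) (b := 1) one_lt_two
    one_lt_two
  have w00 := wPre_val (nE := nE) (nD := nD) U W T t β (i := i) (j := j) (a := 0) (b := 0)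
    two_pos two_pos
  have w10 := wPre_val (nE := nE) (nD := nD) U W T t β (i := i) (j := j) (a := 1) (b := 0)
    one_lt_two two_pos
  have w01 := wPre_val (nE := nE) (nD := nD) U W T t β (i := i) (j := j) (a := 0) (b := 1)
    two_pos one_lt_two
  have w11 := wPre_val (nE := nE) (nD := nD) U W T t β (i := i) (j := j) (a := 1) (b := 1)
    one_lt_two one_lt_two
  simp only [add_zero] at g00 g10 g01 w00 w10 w01
  unfold loc
  unfold cl at *
  simp only [g00, g10, g01, g11, w00, w10, w01, w11]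
  clear g00 g10 g01 g11 w00 w10 w01 w11
  generalize f (2 * i) (2 * j) = p at *
  generalize f (2 * i + 1) (2 * j) = q at *
  generalize f (2 * i) (2 * j + 1) = r at *
  generalize f (2 * i + 1) (2 * j + 1) = s at *
  have link : ∀ τ : ℝ, 0 ≤ τ →
      (2 * T + τ) * ((p + q + r + s) / 4) * ((p + q + r + s) / 4) +
      (2 * T + τ) * ((p + q + r + s) / 4) * ((p + q + r + s) / 4) +
      (2 * T + τ) * ((p + q + r + s) / 4) * ((p + q + r + s) / 4) +
      (2 * T + τ) * ((p + q + r + s) / 4) * ((p + q + r + s) / 4) -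
      T * (((p + q + r + s) / 4 + (p + q + r + s) / 4) *
        ((p + q + r + s) / 4 + (p + q + r + s) / 4) +
        ((p + q + r + s) / 4 + (p + q + r + s) / 4) *
          ((p + q + r + s) / 4 + (p + q + r + s) / 4)) +
      2 * T * ((p - (p + q + r + s) / 4) * (p - (p + q + r + s) / 4) +
        (q - (p + q + r + s) / 4) * (q - (p + q + r + s) / 4) +
        (r - (p + q + r + s) / 4) * (r - (p + q + r + s) / 4) +
        (s - (p + q + r + s) / 4) * (s - (p + q + r + s) / 4)) ≤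
      (2 * T + τ) * p * p + (2 * T + τ) * q * q + (2 * T + τ) * r * r + (2 * T + τ) * s * s -
        T * ((p + s) * (q + r) + (q + r) * (p + s)) := by
    intro τ hτ
    have h1 := mul_nonneg hT (sq_nonneg (p + s - q - r))
    have h2 := mul_nonneg hτ (add_nonneg (add_nonneg (sq_nonneg (p + s - q - r))
      (sq_nonneg (p - s + q - r))) (sq_nonneg (p - s - q + r)))
    nlinarith
  by_cases h : hAct nE nD i j <;> by_cases h' : hAct nE nD j i <;>
    simp only [h, h', if_true, if_false, and_true, and_false, or_true, or_false]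
  · have h1 : s = -p - q - r := by linarith [h0 h h']
    subst h1
    generalize β * nW nE nD * cpl nE nD U W (j / 2) (i / 2) * (-1) ^ (i / 2 + j / 2) = c
    refine ⟨by ring, ?_⟩
    have h2 := mul_nonneg (add_nonneg ht hβ) (sq_nonneg (q + r))
    nlinarith
  · exact ⟨by ring, link _ (by positivity)⟩
  · exact ⟨by ring, link _ (by positivity)⟩
  · refine ⟨by ring, ?_⟩
    have h1 := mul_nonneg hT (add_nonneg (add_nonneg (sq_nonneg (p + s - q - r))
      (sq_nonneg (p - s))) (sq_nonneg (q - r)))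
    nlinarith

lemma bond_pt {t η ν p q g h : ℝ} (ht : 0 ≤ t) (hη : 0 < η) (hν : t ^ 2 ≤ η * ν) :
    t * (p * q + q * p) ≤ t * (g * h + h * g) + η * (g * g + h * h) +
      (ν + t) * ((p - g) * (p - g) + (q - h) * (q - h)) := by
  have key : ∀ u v : ℝ, 2 * t * (u * v) ≤ η * u ^ 2 + ν * v ^ 2 := by
    intro u v
    have h1 : t ^ 2 * v ^ 2 ≤ η * ν * v ^ 2 := mul_le_mul_of_nonneg_right hν (sq_nonneg v)
    have h2 : η * (2 * t * (u * v)) ≤ η * (η * u ^ 2 + ν * v ^ 2) := by
      nlinarith [sq_nonneg (η * u - t * v)]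
    exact le_of_mul_le_mul_left h2 hη
  have h1 := key g (q - h)
  have h2 := key h (p - g)
  have h3 := mul_nonneg ht (sq_nonneg ((p - g) - (q - h)))
  nlinarith

lemma shift_le (m : ℕ) (F : ℕ → ℕ → ℝ) (hF : ∀ k l, 0 ≤ F k l) (h0 : ∀ l, F (2 * m) l = 0) :
    ∑ i ∈ range m, ∑ j ∈ range m, ((F (2 * i + 1) (2 * j) + F (2 * i + 2) (2 * j)) +
      (F (2 * i + 1) (2 * j + 1) + F (2 * i + 2) (2 * j + 1))) ≤
      ∑ i ∈ range m, ∑ j ∈ range m, cl F i j := by
  rw [sum_comm, sum_comm (f := fun i j => cl F i j)]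
  refine sum_le_sum fun j _ => ?_
  have h1 : ∀ l, ∑ i ∈ range m, F (2 * i + 2) l ≤ ∑ i ∈ range m, F (2 * i) l := by
    intro l
    have h2 := sum_range_succ (fun i => F (2 * i) l) m
    have h3 := sum_range_succ' (fun i => F (2 * i) l) m
    simp only [mul_add, mul_one] at h3
    have := hF (2 * 0) l
    rw [h0] at h2
    linarith
  unfold cl
  simp only [sum_add_distrib]
  linarith [h1 (2 * j), h1 (2 * j + 1)]

lemma bond_sum (m : ℕ) {t η ν : ℝ} (ht : 0 ≤ t) (hη : 0 < η) (hν : t ^ 2 ≤ η * ν) (hν0 : 0 ≤ ν)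
    (f g : ℕ → ℕ → ℝ) (hf : ∀ l, f (2 * m) l = 0) (hg : ∀ l, g (2 * m) l = 0) :
    t * ∑ i ∈ range m, ∑ j ∈ range m, bx f f i j ≤ t * ∑ i ∈ range m, ∑ j ∈ range m, bx g g i j +
      η * If m g g + (ν + t) * If m (fun k l => f k l - g k l) (fun k l => f k l - g k l) := by
  have h1 := shift_le m (fun k l => g k l * g k l) (fun _ _ => mul_self_nonneg _)
    fun l => by simp only [hg, mul_zero]
  have h2 := shift_le m (fun k l => (f k l - g k l) * (f k l - g k l))
    (fun _ _ => mul_self_nonneg _) fun l => by simp only [hf, hg, sub_zero, mul_zero]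
  have h3 := mul_le_mul_of_nonneg_left h1 hη.le
  have h4 := mul_le_mul_of_nonneg_left h2 (add_nonneg hν0 ht)
  unfold If
  refine le_trans ?_ (add_le_add (add_le_add le_rfl h3) h4)
  simp only [mul_sum, ← sum_add_distrib]
  refine sum_le_sum fun i _ => sum_le_sum fun j _ => ?_
  unfold bx
  have a1 := bond_pt (p := f (2 * i + 1) (2 * j)) (q := f (2 * i + 2) (2 * j))
    (g := g (2 * i + 1) (2 * j)) (h := g (2 * i + 2) (2 * j)) ht hη hν
  have a2 := bond_pt (p := f (2 * i + 1) (2 * j + 1)) (q := f (2 * i + 2) (2 * j + 1))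
    (g := g (2 * i + 1) (2 * j + 1)) (h := g (2 * i + 2) (2 * j + 1)) ht hη hν
  linarith

lemma If_tr (m : ℕ) (f g : ℕ → ℕ → ℝ) : If m (tr f) (tr g) = If m f g := by
  unfold If
  rw [sum_comm]
  refine sum_congr rfl fun i _ => sum_congr rfl fun j _ => ?_
  unfold cl tr
  ring

lemma If_nonneg (m : ℕ) (f : ℕ → ℕ → ℝ) : 0 ≤ If m f f :=
  sum_nonneg fun _ _ => sum_nonneg fun _ _ => add_nonneg (add_nonneg (add_nonneg
    (mul_self_nonneg _) (mul_self_nonneg _)) (mul_self_nonneg _)) (mul_self_nonneg _)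

lemma rm_edge (l : ℕ) : rm nE nD (2 * (2 * nI nE nD)) l = 0 ∧ rm nE nD l (2 * (2 * nI nE nD)) = 0 := by
  unfold rm
  rw [show 2 * (2 * nI nE nD) / 2 = 2 * nI nE nD by omega]
  have := w_spec nE nD (l / 2 / 2)
  constructor
  · refine if_neg fun h => ?_
    unfold hAct nI at h
    omega
  · refine if_neg fun h => ?_
    have := h.1
    omega

lemma prj_edge (f : ℕ → ℕ → ℝ) (l : ℕ) :
    prj nE nD f (2 * (2 * nI nE nD)) l = 0 ∧ prj nE nD f l (2 * (2 * nI nE nD)) = 0 := by
  unfold prj emb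
  rw [(rm_edge l).1, (rm_edge l).2]
  simp

theorem high_ge (U W : ℕ → ℕ → ℝ) {T t β : ℝ} (hT : 0 < T) (ht : 0 < t) (hβ : 0 ≤ β)
    (f : ℕ → ℕ → ℝ) (hf : ∀ k l, nK nE nD ≤ k ∨ nK nE nD ≤ l → f k l = 0)
    (h0 : ∀ i j, hAct nE nD i j → hAct nE nD j i → cl f i j = 0) :
    If (2 * nI nE nD) (prj nE nD f) f = If (2 * nI nE nD) (prj nE nD f) (prj nE nD f) ∧
    If (2 * nI nE nD) (prj nE nD f) (prj nE nD f) ≤ If (2 * nI nE nD) f f ∧
    Bf (2 * nI nE nD) (wPre nE nD U W T t β) T t (prj nE nD f) (prj nE nD f) -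
      4 * t ^ 2 / T * If (2 * nI nE nD) (prj nE nD f) (prj nE nD f) +
      (T - 2 * t) * (If (2 * nI nE nD) f f - If (2 * nI nE nD) (prj nE nD f) (prj nE nD f)) ≤
      Bf (2 * nI nE nD) (wPre nE nD U W T t β) T t f f := by
  set m := 2 * nI nE nD with hm
  set g := prj nE nD f with hg
  have hc := fun i j => cluster (nE := nE) (nD := nD) U W hT.le ht.le hβ f i j (h0 i j)
  have h1 : If m g f = If m g g := sum_congr rfl fun i _ => sum_congr rfl fun j _ => (hc i j).1
  have h2 : If m (fun k l => f k l - g k l) (fun k l => f k l - g k l) =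
      If m f f - 2 * If m g f + If m g g := by
    unfold If
    simp only [mul_sum, ← sum_add_distrib, ← sum_sub_distrib]
    refine sum_congr rfl fun i _ => sum_congr rfl fun j _ => ?_
    unfold cl
    ring
  have h3 := If_nonneg m fun k l => f k l - g k l
  have hK : nK nE nD ≤ 2 * m := by unfold nK; omega
  have hη : 0 < 2 * t ^ 2 / T := by positivity
  have hν : t ^ 2 ≤ 2 * t ^ 2 / T * (T / 2) := by apply le_of_eq; field_simp
  have b1 := bond_sum m ht.le hη hν (by positivity) f g (fun l => hf _ _ (Or.inl hK))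
    fun l => (prj_edge f l).1
  have b2 := bond_sum m ht.le hη hν (by positivity) (tr f) (tr g) (fun l => hf _ _ (Or.inr hK))
    fun l => (prj_edge f l).2
  have e1 : If m (fun k l => tr f k l - tr g k l) (fun k l => tr f k l - tr g k l) =
      If m (fun k l => f k l - g k l) (fun k l => f k l - g k l) :=
    If_tr m (fun k l => f k l - g k l) (fun k l => f k l - g k l)
  rw [e1, If_tr] at b2
  have hB : ∀ a : ℕ → ℕ → ℝ, Bf m (wPre nE nD U W T t β) T t a a =
      ∑ i ∈ range m, ∑ j ∈ range m, loc (wPre nE nD U W T t β) T a a i j -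
      t * ∑ i ∈ range m, ∑ j ∈ range m, bx a a i j -
      t * ∑ i ∈ range m, ∑ j ∈ range m, bx (tr a) (tr a) i j := by
    intro a
    rw [sum_comm (f := fun i j => bx (tr a) (tr a) i j)]
    unfold Bf
    simp only [mul_sum, sum_sub_distrib]
  have l1 : ∑ i ∈ range m, ∑ j ∈ range m, loc (wPre nE nD U W T t β) T g g i j +
      2 * T * If m (fun k l => f k l - g k l) (fun k l => f k l - g k l) ≤
      ∑ i ∈ range m, ∑ j ∈ range m, loc (wPre nE nD U W T t β) T f f i j := by
    unfold If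
    simp only [mul_sum, ← sum_add_distrib]
    exact sum_le_sum fun i _ => sum_le_sum fun j _ => (hc i j).2
  refine ⟨h1, by linarith, ?_⟩
  rw [hB, hB, show If m f f - If m g g =
    If m (fun k l => f k l - g k l) (fun k l => f k l - g k l) by linarith]
  have e2 : 4 * t ^ 2 / T = 2 * (2 * t ^ 2 / T) := by ring
  rw [e2]
  linarith

theorem lowPerp_of {U W : ℕ → ℕ → ℝ} {T t β S : ℝ}
    (hB : ∀ u v, Bf (2 * nI nE nD) (wPre nE nD U W T t β) T t (emb nE nD u v) (emb nE nD u v) =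
      Blow nE nD U W t β u v u v)
    (hI : ∀ u v f, If (2 * nI nE nD) (emb nE nD u v) f =
      wip nE nD u (amp nE nD f) + wip nE nD v (amp nE nD (tr f)))
    (hU : Tight (fun (e : Fin nE) (d : Fin nD) => U e d))
    (hW : Tight (fun (e : Fin nE) (d : Fin nD) => W e d)) (hS : 2 ≤ S) (hK : (nK nE nD : ℝ) ≤ S)
    (hβ : 0 < β) (h1 : S ^ 5 * β ≤ t) (h2 : S ^ 5 * t ≤ T) :
    LowPerp nE nD U W T t β (β / 40) (S ^ 5 * (β ^ 2 / t + t ^ 2 / T)) := by
  intro f hf h0
  have hS5 : (32 : ℝ) ≤ S ^ 5 := by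
    calc (32 : ℝ) = 2 ^ 5 := by norm_num
      _ ≤ S ^ 5 := pow_le_pow_left₀ (by norm_num) hS 5
  have ht : 0 < t := by nlinarith
  have hT : 0 < T := by nlinarith
  have hβt : 32 * β ≤ t := by nlinarith
  have htT : 32 * t ≤ T := by nlinarith
  obtain ⟨a1, a2, a3⟩ := high_ge U W hT ht hβ.le f hf h0
  have a4 := blow_ge hU hW ht hβ (amp nE nD f) (amp nE nD (tr f))
  have a5 : If (2 * nI nE nD) (prj nE nD f) (prj nE nD f) =
      wip nE nD (amp nE nD f) (amp nE nD f) + wip nE nD (amp nE nD (tr f)) (amp nE nD (tr f)) := by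
    rw [← a1]; exact hI _ _ _
  have a6 : Bf (2 * nI nE nD) (wPre nE nD U W T t β) T t (prj nE nD f) (prj nE nD f) = _ := hB _ _
  rw [← a5, ← a6] at a4
  have a7 := If_nonneg (2 * nI nE nD) (prj nE nD f)
  have hn : (nW nE nD : ℝ) ≤ S := by
    refine le_trans ?_ hK
    have : nW nE nD ≤ nK nE nD := by unfold nW nK nI; omega
    exact_mod_cast this
  have hn4 : 2 * (nW nE nD : ℝ) ^ 4 ≤ S ^ 5 := by
    have : (nW nE nD : ℝ) ^ 4 ≤ S ^ 4 := pow_le_pow_left₀ (Nat.cast_nonneg _) hn 4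
    have h3 : 0 ≤ S ^ 4 := by positivity
    nlinarith
  have d1 : 2 * (nW nE nD : ℝ) ^ 4 * β ^ 2 / t + 4 * t ^ 2 / T ≤
      S ^ 5 * (β ^ 2 / t + t ^ 2 / T) := by
    have p1 : 0 ≤ β ^ 2 / t := by positivity
    have p2 : 0 ≤ t ^ 2 / T := by positivity
    rw [mul_div_assoc, mul_div_assoc, mul_add]
    exact add_le_add (mul_le_mul_of_nonneg_right hn4 p1)
      (mul_le_mul_of_nonneg_right (by linarith) p2)
  have d0 : 0 ≤ S ^ 5 * (β ^ 2 / t + t ^ 2 / T) := by positivity
  have d2 := mul_le_mul_of_nonneg_right d1 a7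
  have d3 := mul_le_mul_of_nonneg_left a2 d0
  have d4 := mul_le_mul_of_nonneg_right (show β / 40 ≤ T - 2 * t by linarith) (sub_nonneg.2 a2)
  nlinarith

end

end Vale.Agent.P370Z.GRID.Low
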