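import Vale.Agent.P370Z.GRID.Emb

/-!
# P370, block GRID: the valence orbitals are orthonormal zero modes
-/

namespace Vale.Agent.P370Z.GRID

open Finset

variable {nE nD : ℕ} {U W : ℕ → ℕ → ℝ}

theorem tight_range (hU : Tight fun (e : Fin nE) (d : Fin nD) => U e d) (d d' : Fin nD) :
    ∑ e ∈ range nE, U e d * U e d' = idm d d' := by
  rw [← hU d d', Fin.sum_univ_eq_sum_range fun e => U e d * U e d']

theorem coef_main {d d' : ℕ} (h : d' < nD) :
    coef nE nD U d (nE + d') = 5 / √68 * if d' = d then 1 else 0 := by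
  unfold coef
  rw [if_pos (isMain_main h)]
  simp

theorem coef_lead (d e : ℕ) : coef nE nD U d (nE + nD + e) = 5 / √68 * (3 / 5 * U e d) := by
  unfold coef
  rw [if_neg (not_isMain_lead e), show nE + nD + e - nE - nD = e by omega]

theorem sq68 : (5 / √68 : ℝ) * (5 / √68) = 25 / 68 := by
  rw [div_mul_div_comm, Real.mul_self_sqrt (by norm_num)]; norm_num

theorem nW_pos' : (0 : ℝ) < nW nE nD := by unfold nW; positivity

theorem vam_mul (U W : ℕ → ℕ → ℝ) (d d' J I i j : ℕ) :
    nW nE nD * (vam nE nD U d J i * vam nE nD W d' I j) = coef nE nD U d J * coef nE nD W d' I := by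
  have h := nW_pos' (nE := nE) (nD := nD)
  unfold vam
  rw [div_mul_div_comm, Real.mul_self_sqrt h.le]
  field_simp

theorem sum_delta (d d' : Fin nD) : ∑ x ∈ range nD,
    ((if x = (d : ℕ) then (1 : ℝ) else 0) * if x = (d' : ℕ) then 1 else 0) = idm d d' := by
  simp only [ite_mul, one_mul, zero_mul, sum_ite_eq', mem_range, d.2, if_true, idm, Fin.ext_iff]

theorem wip_vam_vam (hU : Tight fun (e : Fin nE) (d : Fin nD) => U e d) (d d' : Fin nD) :
    wip nE nD (vam nE nD U d) (vam nE nD U d') = idm d d' / 2 := by
  have h1 : wip nE nD (vam nE nD U d) (vam nE nD U d') =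
      ∑ J ∈ lines nE nD, coef nE nD U d J * coef nE nD U d' J := by
    refine sum_congr rfl fun J hJ => ?_
    rw [← vam_mul U U d d' J J 0 0, ← card_wire hJ, ← nsmul_eq_mul, ← sum_const]
    rfl
  rw [h1, sum_lines_split, sum_congr rfl fun x hx => by
    rw [coef_main (mem_range.1 hx), coef_main (mem_range.1 hx), mul_mul_mul_comm, sq68]]
  have h2 : ∀ e, coef nE nD U d (nE + nD + e) * coef nE nD U d' (nE + nD + e) =
      9 / 68 * (U e d * U e d') := fun e => by
    rw [coef_lead, coef_lead]
    linear_combination (9 / 25 * U e d * U e d') * sq68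
  simp only [h2]
  rw [← mul_sum, ← mul_sum, sum_delta, tight_range hU]
  ring

theorem wcr_vam (hU : Tight fun (e : Fin nE) (d : Fin nD) => U e d)
    (hW : Tight fun (e : Fin nE) (d : Fin nD) => W e d) (d d' : Fin nD) :
    nW nE nD * wcr nE nD U W (vam nE nD U d) (vam nE nD W d') = idm d d' / 2 := by
  have h1 : nW nE nD * wcr nE nD U W (vam nE nD U d) (vam nE nD W d') =
      ∑ J ∈ lines nE nD, ∑ I ∈ lines nE nD, if isMain nE nD J ∨ isMain nE nD I then
        cpl nE nD U W J I * (coef nE nD U d J * coef nE nD W d' I) else 0 := by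
    unfold wcr
    simp only [mul_sum]
    refine sum_congr rfl fun J _ => sum_congr rfl fun I _ => ?_
    split_ifs
    · rw [mul_left_comm, vam_mul]
    · rw [mul_zero]
  rw [h1]
  simp only [sum_lines_split, not_isMain_lead, or_false, false_or, if_false, sum_const_zero,
    add_zero, coef_lead]
  have a1 : ∀ x ∈ range nD, (∑ y ∈ range nD, (if isMain nE nD (nE + x) ∨ isMain nE nD (nE + y) then
        cpl nE nD U W (nE + x) (nE + y) * (coef nE nD U d (nE + x) * coef nE nD W d' (nE + y))
        else 0) + ∑ e ∈ range nE, if isMain nE nD (nE + x) then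
        cpl nE nD U W (nE + x) (nE + nD + e) *
          (coef nE nD U d (nE + x) * (5 / √68 * (3 / 5 * W e d'))) else 0) =
      if x = (d : ℕ) then 25 / 68 * (16 / 25 * idm d d' + 9 / 25 * idm d d') else 0 := by
    intro x hx
    have hx' := mem_range.1 hx
    simp only [isMain_main hx', true_or, if_true, coef_main hx']
    split_ifs with h
    · subst h
      rw [mul_add]
      congr 1
      · rw [sum_eq_single_of_mem (d' : ℕ) (mem_range.2 d'.2) fun y hy hne => by
          rw [coef_main (mem_range.1 hy), if_neg hne]; ring]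
        rw [coef_main d'.2, if_pos rfl, mul_one, sq68]
        unfold cpl idm
        rw [if_pos ⟨isMain_main d.2, isMain_main d'.2⟩]
        simp only [add_right_inj, Fin.ext_iff]
        split_ifs <;> ring
      · rw [← tight_range hW, mul_sum, mul_sum]
        refine sum_congr rfl fun e _ => ?_
        unfold cpl
        rw [if_neg fun h => not_isMain_lead e h.2, if_neg (not_isMain_lead e),
          show nE + nD + e - nE - nD = e by omega, show nE + d - nE = d by omega]
        linear_combination (9 / 25 * W e d * W e d') * sq68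
    · simp
  have a2 : ∀ e ∈ range nE, (∑ y ∈ range nD, if isMain nE nD (nE + y) then
        cpl nE nD U W (nE + nD + e) (nE + y) *
          (5 / √68 * (3 / 5 * U e d) * coef nE nD W d' (nE + y)) else 0) =
      25 / 68 * (9 / 25 * (U e d * U e d')) := by
    intro e _
    rw [sum_eq_single_of_mem (d' : ℕ) (mem_range.2 d'.2) fun y hy hne => by
      rw [coef_main (mem_range.1 hy), if_neg hne]; simp]
    rw [if_pos (isMain_main d'.2), coef_main d'.2, if_pos rfl]
    unfold cpl
    rw [if_neg fun h => not_isMain_lead e h.1, if_pos (isMain_main d'.2),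
      show nE + nD + e - nE - nD = e by omega, show nE + d' - nE = d' by omega]
    linear_combination (9 / 25 * U e d * U e d') * sq68
  rw [sum_congr rfl a1, sum_congr rfl a2, sum_ite_eq', if_pos (mem_range.2 d.2), ← mul_sum,
    ← mul_sum, tight_range hU]
  ring

theorem idm_comm {L : Type} [DecidableEq L] (a b : L) : idm a b = idm b a := by
  unfold idm; simp only [eq_comm]

theorem Blow_vam (hU : Tight fun (e : Fin nE) (d : Fin nD) => U e d)
    (hW : Tight fun (e : Fin nE) (d : Fin nD) => W e d) (t β : ℝ) (d d' : Fin nD) :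
    Blow nE nD U W t β (vam nE nD U d) (vam nE nD W d) (vam nE nD U d') (vam nE nD W d') = 0 := by
  have h0 : ∀ U : ℕ → ℕ → ℝ, wlap nE nD (vam nE nD U d) (vam nE nD U d') = 0 := fun U => by
    simp [wlap, vam]
  have h1 := wcr_vam hU hW d d'
  have h2 := wcr_vam hU hW d' d
  rw [idm_comm] at h2
  unfold Blow
  rw [h0, h0, wip_vam_vam hU, wip_vam_vam hW]
  linear_combination -β * h1 - β * h2

end Vale.Agent.P370Z.GRID
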